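import Vale.Agent.P165.H177.Incr

/-!
# Upper bounds for the critical exponents from block `BA1`
-/

set_option autoImplicit false
set_option linter.unusedSectionVars false

open Finset

namespace Vale.Agent.P165.H177

open Vale.Agent.P151 (Ex Cn cl csz edgesIn EV con tau)
open Vale.Agent.P165.LF Vale.Agent.P165.BS Vale.Agent.P165.BS2 Vale.Agent.P165.H794
open Vale.Agent.P165.H199

variable {V : Type} [DecidableEq V] {G : SimpleGraph V}

/-- The mean-field upper bound for the susceptibility below `p_c`. -/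
theorem chi_upper [Infinite V] [G.LocallyFinite] (hG : G.Connected) (hqt : IsQuasiTransitive G)
    (hna : 0 < vertexCheeger G) :
    ∃ C, 0 < C ∧ ∀ q, 0 ≤ q → q < pc G → chi G q ≤ C / (pc G - q) := by
  have hne : Nonempty V := hG.nonempty
  have hpc0 := pc_pos (G := G) hG hqt
  have hlt : pc G < pTwoTwo G := pc_lt_of_nonamenable hG hqt hna
    fun p N h0 h1 hL => le_pTwoTwo hG h0 h1 hL
  obtain ⟨p₁, N, hp₁, h10, h11, hL⟩ := exists_L2B_of_lt hG hlt
  have hpc1 : pc G < 1 := hp₁.trans_le h11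
  have hN0 : 0 < N := by
    have h2 := one_le_of_normTwoLe (normTwoLe_of_L2B hG ⟨p₁, h10, h11⟩ hL)
    linarith only [h2]
  exact chi_le_of_L2B hG hqt hpc0 hpc1.le hN0 fun q h0 hq =>
    hL.mg_mono h0 (hq.le.trans hp₁.le) h11

theorem pc_lt_one [Infinite V] [G.LocallyFinite] (hG : G.Connected) (hqt : IsQuasiTransitive G)
    (hna : 0 < vertexCheeger G) : pc G < 1 := by
  have hlt : pc G < pTwoTwo G := pc_lt_of_nonamenable hG hqt hna
    fun p N h0 h1 hL => le_pTwoTwo hG h0 h1 hL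
  obtain ⟨p₁, N, hp₁, h10, h11, hL⟩ := exists_L2B_of_lt hG hlt
  exact hp₁.trans_le h11

theorem mF_le_vol {q t : ℝ} (h0 : 0 ≤ q) (h1 : q ≤ 1) (ht0 : 0 ≤ t) (F : Finset V) (x : V) :
    mF G q t F x ≤ (1 - t) * vol G q (x, F) := by
  unfold mF vol
  rw [← Vale.Agent.P151.Ex_const_mul]
  refine Vale.Agent.P151.Ex_mono h0 h1 fun S _ => ?_
  have h2 := one_add_mul_sub_le_pow (a := t) (by linarith only [ht0]) (csz S x)
  linarith only [h2]

theorem mM_le_chi [Nonempty V] {q t : ℝ} (h0 : 0 ≤ q) (h1 : q ≤ 1) (ht0 : 0 ≤ t) (ht1 : t ≤ 1)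
    (hs : Sub G q) : mM G q t ≤ (1 - t) * chi G q := by
  refine mM_le fun F x => (mF_le_vol h0 h1 ht0 F x).trans ?_
  exact mul_le_mul_of_nonneg_left (csz_le_chi hs x F) (by linarith only [ht1])

/-- `M(p_c, t) ≤ K √(1 - t)`. -/
theorem mM_crit [Infinite V] [G.LocallyFinite] (hG : G.Connected) (hqt : IsQuasiTransitive G)
    (hna : 0 < vertexCheeger G) (hb : BA1 G) :
    ∃ K : ℝ, 0 < K ∧ ∀ t : ℝ, 0 < t → t < 1 → mM G (pc G) t ≤ K * √(1 - t) := by
  have hne : Nonempty V := hG.nonempty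
  have hpc0 := pc_pos (G := G) hG hqt
  obtain ⟨p₁, K, hp₁, hp1, hK, hlip⟩ := mM_lipschitz hG hqt hb
  obtain ⟨C, hC, hchi⟩ := chi_upper hG hqt hna
  have hpc1 : pc G < 1 := hp₁.trans hp1
  refine ⟨2 * C / pc G + K * (pc G / 2), by positivity, fun t ht0 ht1 => ?_⟩
  set h := √(1 - t) with hh
  have h1t : 0 < 1 - t := by linarith only [ht1]
  have hh0 : 0 < h := Real.sqrt_pos.2 h1t
  have hh1 : h ≤ 1 := Real.sqrt_le_one.2 (by linarith only [ht0])
  have hh2 : h * h = 1 - t := Real.mul_self_sqrt h1t.le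
  set q := pc G - pc G / 2 * h with hq
  have hq1 : pc G / 2 ≤ q := by nlinarith only [hq, hh1, hpc0]
  have hq2 : q < pc G := by nlinarith only [hq, hh0, hpc0]
  have hq0 : 0 ≤ q := by linarith only [hq1, hpc0]
  have hs : Sub G q := sub_of_lt_pc hG hqt hq0 hq2 (hq2.le.trans hpc1.le)
  have e1 := hlip t ht0 ht1 q (pc G) hq1 hq2.le hp₁.le
  have e2 := mM_le_chi (G := G) hq0 (hq2.le.trans hpc1.le) ht0.le ht1.le hs
  have e3 := hchi q hq0 hq2
  have e4 : pc G - q = pc G / 2 * h := by rw [hq]; ring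
  rw [e4] at e1 e3
  have e5 : (1 - t) * chi G q ≤ 2 * C / pc G * h := by
    calc (1 - t) * chi G q ≤ (1 - t) * (C / (pc G / 2 * h)) :=
          mul_le_mul_of_nonneg_left e3 h1t.le
      _ = 2 * C / pc G * h := by
          rw [← hh2]
          field_simp
  calc mM G (pc G) t ≤ mM G q t + K * (pc G / 2 * h) := e1
    _ ≤ 2 * C / pc G * h + K * (pc G / 2 * h) := by linarith only [e2, e5]
    _ = _ := by ring

/-- `(1 - t^n) P(|K_x| ≥ n) ≤ E[1 - t^|K_x|]`. -/
theorem tail_le_mF {q t : ℝ} (h0 : 0 ≤ q) (h1 : q ≤ 1) (ht0 : 0 ≤ t) (ht1 : t ≤ 1) (n : ℕ)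
    (F : Finset V) (x : V) :
    (1 - t ^ n) * Ex q (edgesIn G F) (fun S => ind (n ≤ csz S x)) ≤ mF G q t F x := by
  unfold mF
  rw [← Vale.Agent.P151.Ex_const_mul]
  refine Vale.Agent.P151.Ex_mono h0 h1 fun S _ => ?_
  by_cases h : n ≤ csz S x
  · rw [ind_true h, mul_one]
    have := pow_le_pow_of_le_one ht0 ht1 h
    linarith only [this]
  · rw [ind_false h, mul_zero]
    exact gh_nonneg ht0 ht1 x S

theorem tail_nonneg {q : ℝ} (h0 : 0 ≤ q) (h1 : q ≤ 1) (n : ℕ) (F : Finset V) (x : V) :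
    0 ≤ Ex q (edgesIn G F) (fun S => ind (n ≤ csz S x)) :=
  Vale.Agent.P151.Ex_nonneg h0 h1 fun _ _ => ind_nonneg _

theorem tail_le_one {q : ℝ} (h0 : 0 ≤ q) (h1 : q ≤ 1) (n : ℕ) (F : Finset V) (x : V) :
    Ex q (edgesIn G F) (fun S => ind (n ≤ csz S x)) ≤ 1 :=
  Vale.Agent.P151.Ex_le_const h0 h1 fun _ _ => ind_le_one _

theorem tail_mono (n : ℕ) (x : V) :
    Monotone (fun S : Finset (Sym2 V) => ind (n ≤ csz S x)) := fun _ _ h =>
  ind_mono fun h1 => h1.trans (Vale.Agent.P151.csz_mono h x)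

/-- Block (A): the upper bound for the critical cluster tail. -/
theorem tailUp [Infinite V] [G.LocallyFinite] (hG : G.Connected) (hqt : IsQuasiTransitive G)
    (hna : 0 < vertexCheeger G) (hb : BA1 G) : TailUp G := by
  have hne : Nonempty V := hG.nonempty
  have hpc0 := pc_pos (G := G) hG hqt
  have hpc1 := pc_lt_one (G := G) hG hqt hna
  obtain ⟨K, hK, hcrit⟩ := mM_crit hG hqt hna hb
  refine ⟨2 * K + 1, by positivity, fun n hn x F => ?_⟩
  have hn0 : (0 : ℝ) < n := by exact_mod_cast hn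
  have hsq : 0 < √(n : ℝ) := Real.sqrt_pos.2 hn0
  have hP1 := tail_le_one (G := G) hpc0.le hpc1.le n F x
  have hP0 := tail_nonneg (G := G) hpc0.le hpc1.le n F x
  set P := Ex (pc G) (edgesIn G F) (fun S => ind (n ≤ csz S x)) with hP
  rcases Nat.lt_or_ge n 2 with h2 | h2
  · have h3 : n = 1 := by omega
    rw [h3, Nat.cast_one, Real.sqrt_one, div_one]
    linarith only [hP1, hK]
  · have hn2 : (2 : ℝ) ≤ n := by exact_mod_cast h2
    set t : ℝ := 1 - 1 / n with ht
    have h1n : 1 / (n : ℝ) ≤ 1 / 2 := one_div_le_one_div_of_le (by norm_num) hn2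
    have h1n0 : 0 < 1 / (n : ℝ) := by positivity
    have ht0 : 0 < t := by linarith only [ht, h1n]
    have ht1 : t < 1 := by linarith only [ht, h1n0]
    have h4 : t ^ n ≤ 1 / 2 := by
      have h5 := Real.one_sub_div_pow_le_exp_neg (n := n) (t := 1) (by linarith only [hn2])
      have h6 : Real.exp (-1) ≤ 1 / 2 := by
        rw [Real.exp_neg, ← one_div]
        refine one_div_le_one_div_of_le (by norm_num) ?_
        have := Real.add_one_le_exp (1 : ℝ)
        linarith only [this]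
      exact h5.trans h6
    have h5 := (tail_le_mF (G := G) hpc0.le hpc1.le ht0.le ht1.le n F x).trans
      (mF_le_mM hpc0.le hpc1.le ht0.le F x)
    have h6 := hcrit t ht0 ht1
    have h7 : √(1 - t) = 1 / √(n : ℝ) := by
      rw [ht, sub_sub_cancel, Real.sqrt_div zero_le_one, Real.sqrt_one]
    rw [h7] at h6
    rw [le_div_iff₀ hsq]
    have h8 : P / 2 ≤ K * (1 / √(n : ℝ)) := by
      nlinarith only [h5, h6, h4, hP0]
    have h9 : P / 2 * √(n : ℝ) ≤ K := by
      calc P / 2 * √(n : ℝ) ≤ K * (1 / √(n : ℝ)) * √(n : ℝ) :=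
            mul_le_mul_of_nonneg_right h8 hsq.le
        _ = K := by field_simp
    linarith only [h9]

/-- Block (B): the upper bound for the percolation probability. -/
theorem thetaUp [Infinite V] [G.LocallyFinite] (hG : G.Connected) (hqt : IsQuasiTransitive G)
    (hna : 0 < vertexCheeger G) (hb : BA1 G) : ThetaUp G := by
  have hne : Nonempty V := hG.nonempty
  have hpc0 := pc_pos (G := G) hG hqt
  have hpc1 := pc_lt_one (G := G) hG hqt hna
  obtain ⟨K, hK, hcrit⟩ := mM_crit hG hqt hna hb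
  obtain ⟨p₁, L, hp₁, hp1, hL, hlip⟩ := mM_lipschitz hG hqt hb
  have hp₁' : 0 < p₁ - pc G := by linarith only [hp₁]
  refine ⟨L + 1 / (p₁ - pc G), by positivity, fun p hp hp1' x ε hε => ?_⟩
  have hp0 : 0 ≤ p := hpc0.le.trans hp
  have hdiff : 0 ≤ p - pc G := by linarith only [hp]
  rcases le_total p p₁ with hpp | hpp
  · -- choose `t` close to one
    set η := min (1 / 2) ((ε / (2 * K)) ^ 2) with hη
    have hη0 : 0 < η := lt_min (by norm_num) (by positivity)
    have hη1 : η ≤ 1 / 2 := min_le_left _ _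
    have hη2 : √η ≤ ε / (2 * K) := by
      rw [Real.sqrt_le_left (by positivity)]
      exact min_le_right _ _
    set t := 1 - η with ht
    have ht0 : 0 < t := by linarith only [ht, hη1]
    have ht1 : t < 1 := by linarith only [ht, hη0]
    obtain ⟨n, hn⟩ := exists_pow_lt_of_lt_one (half_pos hε) ht1
    refine ⟨n, fun F => ?_⟩
    have e1 := (tail_le_mF (G := G) hp0 hp1' ht0.le ht1.le n F x).trans
      (mF_le_mM hp0 hp1' ht0.le F x)
    have e2 := hlip t ht0 ht1 (pc G) p (by linarith only [hpc0]) hp hpp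
    have e3 := hcrit t ht0 ht1
    have e4 : √(1 - t) ≤ ε / (2 * K) := by rw [ht, sub_sub_cancel]; exact hη2
    have e5 : K * √(1 - t) ≤ ε / 2 := by
      calc K * √(1 - t) ≤ K * (ε / (2 * K)) := mul_le_mul_of_nonneg_left e4 hK.le
        _ = ε / 2 := by field_simp
    have hP1 := tail_le_one (G := G) hp0 hp1' n F x
    have hP0 := tail_nonneg (G := G) hp0 hp1' n F x
    have htn : 0 ≤ t ^ n := pow_nonneg ht0.le _
    have e6 : t ^ n * Ex p (edgesIn G F) (fun S => ind (n ≤ csz S x)) ≤ ε / 2 := by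
      nlinarith only [hn, hP1, hP0, htn]
    have e7 : 0 ≤ 1 / (p₁ - pc G) * (p - pc G) := by positivity
    linarith only [e1, e2, e3, e5, e6, e7]
  · refine ⟨0, fun F => ?_⟩
    have hP1 := tail_le_one (G := G) hp0 hp1' 0 F x
    have e1 : 1 ≤ 1 / (p₁ - pc G) * (p - pc G) := by
      rw [div_mul_eq_mul_div, one_mul, le_div_iff₀ hp₁']
      linarith only [hpp]
    have e2 : 0 ≤ L * (p - pc G) := mul_nonneg hL.le hdiff
    linarith only [hP1, e1, e2, hε]

/-- Block (C): the truncated susceptibility above `p_c`. -/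
theorem finUp [Infinite V] [G.LocallyFinite] (hG : G.Connected) (hqt : IsQuasiTransitive G)
    (hb : BA1 G) (hth : ThetaLow G) : FinUp G := by
  have hpc0 := pc_pos (G := G) hG hqt
  obtain ⟨p₁, C, hp₁, hp1, hC, hB⟩ := hb
  obtain ⟨c, hc, hθ⟩ := hth
  refine ⟨p₁, C / c, hp₁, hp1, by positivity, fun p hp hpp t ht0 ht1 x => ?_⟩
  have hp0 : 0 ≤ p := hpc0.le.trans hp.le
  have hple1 : p ≤ 1 := hpp.trans hp1.le
  have hdiff : 0 < p - pc G := by linarith only [hp]
  have hm : c * (p - pc G) ≤ mM G p t := by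
    have h1 : ∀ n : ℕ, (1 - t ^ n) * (c * (p - pc G)) ≤ mM G p t := by
      intro n
      rcases eq_or_ne n 0 with rfl | hn
      · have h2 := mF_le_mM (G := G) hp0 hple1 ht0.le ∅ x
        have h3 : 0 ≤ mF G p t (∅ : Finset V) x :=
          Vale.Agent.P151.Ex_nonneg hp0 hple1 fun S _ => gh_nonneg ht0.le ht1.le x S
        rw [pow_zero, sub_self, zero_mul]
        exact h3.trans h2
      · have h2 : 0 < 1 - t ^ n := by
          have := pow_lt_one₀ ht0.le ht1 hn
          linarith only [this]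
        have h3 : EV G p (fun S => ind (n ≤ csz S x)) ≤ mM G p t / (1 - t ^ n) := by
          refine Vale.Agent.P151.EV_le fun F => ?_
          rw [le_div_iff₀ h2, mul_comm]
          exact (tail_le_mF hp0 hple1 ht0.le ht1.le n F x).trans (mF_le_mM hp0 hple1 ht0.le F x)
        have h4 := (hθ p hp.le hple1 x n).trans h3
        rw [le_div_iff₀ h2] at h4
        linarith only [h4]
    have h2 : Filter.Tendsto (fun n : ℕ => (1 - t ^ n) * (c * (p - pc G))) Filter.atTop
        (nhds ((1 - 0) * (c * (p - pc G)))) :=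
      (tendsto_const_nhds.sub (tendsto_pow_atTop_nhds_zero_of_lt_one ht0.le ht1)).mul_const _
    have h3 := le_of_tendsto h2 (Filter.Eventually.of_forall h1)
    linarith only [h3]
  obtain ⟨F0, hF0⟩ := hB p t (by linarith only [hpc0, hp]) hpp ht0 ht1 x
  refine ⟨F0, fun F hF => ?_⟩
  have h1 := hF0 F hF
  have hE : 0 ≤ Ex p (edgesIn G F) (fun S => (csz S x : ℝ) * t ^ csz S x) :=
    Vale.Agent.P151.Ex_nonneg hp0 hple1 fun S _ => by positivity
  have h2 : c * (p - pc G) * Ex p (edgesIn G F) (fun S => (csz S x : ℝ) * t ^ csz S x) ≤ C :=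
    (mul_le_mul_of_nonneg_right hm hE).trans h1
  rw [le_div_iff₀ hdiff, le_div_iff₀ hc]
  linarith only [h2]

end Vale.Agent.P165.H177
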