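import Vale.Agent.P165.H177.Up

/-!
# The lower bound for the critical cluster tail
-/

set_option autoImplicit false
set_option linter.unusedSectionVars false

open Finset

namespace Vale.Agent.P165.H177

open Vale.Agent.P151 (Ex Cn cl csz edgesIn EV con tau)
open Vale.Agent.P165.LF Vale.Agent.P165.BS Vale.Agent.P165.BS2 Vale.Agent.P165.H794
open Vale.Agent.P165.H199

variable {V : Type} [DecidableEq V] {G : SimpleGraph V}

/-- Cauchy–Schwarz for `Ex`. -/
theorem Ex_cauchy {ι : Type*} [DecidableEq ι] {p : ℝ} (h0 : 0 ≤ p) (h1 : p ≤ 1) (Λ : Finset ι)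
    (f g : Finset ι → ℝ) :
    (Ex p Λ (fun S => f S * g S)) ^ 2 ≤
      Ex p Λ (fun S => f S ^ 2) * Ex p Λ (fun S => g S ^ 2) := by
  set a := Ex p Λ (fun S => f S ^ 2) with ha
  set b := Ex p Λ (fun S => f S * g S) with hb
  set c := Ex p Λ (fun S => g S ^ 2) with hc
  have key : ∀ l : ℝ, 0 ≤ a * (l * l) + 2 * b * l + c := by
    intro l
    have h2 : 0 ≤ Ex p Λ (fun S => (l * f S + g S) ^ 2) :=
      Vale.Agent.P151.Ex_nonneg h0 h1 fun S _ => sq_nonneg _
    have h3 : Ex p Λ (fun S => (l * f S + g S) ^ 2) = a * (l * l) + 2 * b * l + c := by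
      have e : (fun S => (l * f S + g S) ^ 2) =
          fun S => (l * l * f S ^ 2 + 2 * l * (f S * g S)) + g S ^ 2 := by
        funext S; ring
      rw [e, Vale.Agent.P151.Ex_add, Vale.Agent.P151.Ex_add, Vale.Agent.P151.Ex_const_mul,
        Vale.Agent.P151.Ex_const_mul]
      ring
    rw [← h3]
    exact h2
  have h4 := discrim_le_zero (a := a) (b := 2 * b) (c := c) key
  unfold discrim at h4
  linarith only [h4]

/-- The sum of `1/√k`. -/
theorem sum_inv_sqrt_le (n : ℕ) : ∑ k ∈ Finset.range n, 1 / √((k : ℝ) + 1) ≤ 2 * √(n : ℝ) := by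
  induction n with
  | zero => simp
  | succ n ih =>
    rw [Finset.sum_range_succ]
    have hn0 : (0 : ℝ) ≤ n := Nat.cast_nonneg n
    have ha : 0 ≤ √(n : ℝ) := Real.sqrt_nonneg _
    have hb : 0 < √((n : ℝ) + 1) := Real.sqrt_pos.2 (by linarith only [hn0])
    have ha2 : √(n : ℝ) * √(n : ℝ) = n := Real.mul_self_sqrt hn0
    have hb2 : √((n : ℝ) + 1) * √((n : ℝ) + 1) = n + 1 :=
      Real.mul_self_sqrt (by linarith only [hn0])
    push_cast
    set a := √(n : ℝ)
    set b := √((n : ℝ) + 1)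
    have h1 : 1 / b ≤ 2 * b - 2 * a := by
      rw [div_le_iff₀ hb]
      have h2 : a * b ≤ (a * a + b * b) / 2 := by nlinarith only [sq_nonneg (a - b)]
      nlinarith only [ha2, hb2, h2]
    linarith only [ih, h1]

/-- `E[|K|; |K| < n] ≤ ∑_{k < n} P(|K| ≥ k + 1)`. -/
theorem trunc_le {q : ℝ} (h0 : 0 ≤ q) (h1 : q ≤ 1) (n : ℕ) (F : Finset V) (x : V) :
    Ex q (edgesIn G F) (fun S => (csz S x : ℝ) * (1 - ind (n ≤ csz S x))) ≤
      ∑ k ∈ Finset.range n, Ex q (edgesIn G F) (fun S => ind (k + 1 ≤ csz S x)) := by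
  rw [← Vale.Agent.P151.Ex_sum]
  refine Vale.Agent.P151.Ex_mono h0 h1 fun S _ => ?_
  by_cases h : n ≤ csz S x
  · rw [ind_true h, sub_self, mul_zero]
    exact Finset.sum_nonneg fun k _ => ind_nonneg _
  · rw [ind_false h, _root_.sub_zero, mul_one]
    push Not at h
    calc (csz S x : ℝ) = ∑ k ∈ Finset.range (csz S x), (1 : ℝ) := by
          rw [Finset.sum_const, Finset.card_range, nsmul_eq_mul, mul_one]
      _ = ∑ k ∈ Finset.range (csz S x), ind (k + 1 ≤ csz S x) := by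
          refine Finset.sum_congr rfl fun k hk => ?_
          rw [Finset.mem_range] at hk
          rw [ind_true (by omega)]
      _ ≤ ∑ k ∈ Finset.range n, ind (k + 1 ≤ csz S x) :=
          Finset.sum_le_sum_of_subset_of_nonneg
            (fun k hk => by
              rw [Finset.mem_range] at hk ⊢
              omega) (fun k _ _ => ind_nonneg _)

/-- Block (D): the lower bound for the critical cluster tail. -/
theorem tailLow [Infinite V] [G.LocallyFinite] (hG : G.Connected) (hqt : IsQuasiTransitive G)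
    (hna : 0 < vertexCheeger G) (hU : TailUp G) : TailLow G := by
  have hne : Nonempty V := hG.nonempty
  have hpc0 := pc_pos (G := G) hG hqt
  have hpc1 := pc_lt_one (G := G) hG hqt hna
  obtain ⟨A, hA, hup⟩ := hU
  obtain ⟨C, hC, hchi⟩ := chi_upper hG hqt hna
  obtain ⟨d, hd1, hd⟩ := LF.exists_degree_bound (G := G) hqt
  have hd1' : (1 : ℝ) ≤ d := by exact_mod_cast hd1
  have hp20 : 0 < pc G / 2 := by linarith only [hpc0]
  obtain ⟨c0, hc0, hc01, hvol⟩ := exists_vol_lower hG hqt hp20 (by linarith only [hpc1, hpc0])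
  set c1 := (1 - pc G) / (2 * d) with hc1
  have h1pc : 0 < 1 - pc G := by linarith only [hpc1]
  have hc10 : 0 < c1 := by positivity
  -- the scale
  set κ := min (pc G / 2) (c0 * c1 / (4 * A)) with hκ
  have hκ0 : 0 < κ := lt_min hp20 (by positivity)
  have hκ1 : κ ≤ pc G / 2 := min_le_left _ _
  have hκ2 : κ ≤ c0 * c1 / (4 * A) := min_le_right _ _
  refine ⟨c0 ^ 2 / 4 * (κ / C), by positivity, fun n hn x => ?_⟩
  have hn0 : (0 : ℝ) < n := by exact_mod_cast hn
  have hsq : 0 < √(n : ℝ) := Real.sqrt_pos.2 hn0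
  have hsq1 : 1 ≤ √(n : ℝ) := by
    rw [Real.one_le_sqrt]
    exact_mod_cast hn
  set q := pc G - κ / √(n : ℝ) with hq
  have hκn : 0 < κ / √(n : ℝ) := by positivity
  have hκn2 : κ / √(n : ℝ) ≤ κ := div_le_self hκ0.le hsq1
  have hq2 : q < pc G := by linarith only [hq, hκn]
  have hq1 : pc G / 2 ≤ q := by linarith only [hq, hκn2, hκ1]
  have hq0 : 0 ≤ q := by linarith only [hq1, hpc0]
  have hq11 : q ≤ 1 := hq2.le.trans hpc1.le
  have hs : Sub G q := sub_of_lt_pc hG hqt hq0 hq2 hq11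
  have hdiff : pc G - q = κ / √(n : ℝ) := by rw [hq]; ring
  have hX1 : 1 ≤ chi G q := one_le_chi hq0 hq11 hs
  have hX0 : 0 < chi G q := by linarith only [hX1]
  have e1 := hchi q hq0 hq2
  have e2 := chi_ge hG hd1 hd hpc1 hq0 hq2 hs
  rw [hdiff] at e1 e2
  -- lower bound for the susceptibility
  have e3 : 4 * A * √(n : ℝ) ≤ c0 * chi G q := by
    have h1 : c1 / (κ / √(n : ℝ)) = c1 * √(n : ℝ) / κ := by field_simp
    rw [← hc1, h1] at e2
    have h2 : 4 * A * κ ≤ c0 * c1 := by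
      rw [le_div_iff₀ (by positivity)] at hκ2
      linarith only [hκ2]
    have h3 : 4 * A * √(n : ℝ) ≤ c0 * (c1 * √(n : ℝ) / κ) := by
      rw [mul_div_assoc', le_div_iff₀ hκ0]
      nlinarith only [h2, hsq]
    exact h3.trans (mul_le_mul_of_nonneg_left e2 hc0.le)
  obtain ⟨F0, hF0⟩ := hvol q hq1 hq11 hs {x}
  have e4 := hF0 F0 subset_rfl x (Finset.mem_singleton_self x)
  set Λ := edgesIn G F0 with hΛ
  set P := Ex q Λ (fun S => ind (n ≤ csz S x)) with hP
  have e5 : Ex q Λ (fun S => (csz S x : ℝ) * (1 - ind (n ≤ csz S x))) ≤ 2 * A * √(n : ℝ) := by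
    refine (trunc_le (G := G) hq0 hq11 n F0 x).trans ?_
    calc ∑ k ∈ Finset.range n, Ex q (edgesIn G F0) (fun S => ind (k + 1 ≤ csz S x))
        ≤ ∑ k ∈ Finset.range n, A * (1 / √((k : ℝ) + 1)) := by
          refine Finset.sum_le_sum fun k _ => ?_
          have h1 := hup (k + 1) (Nat.le_add_left 1 k) x F0
          have h2 := Vale.Agent.P151.Ex_mono_p hq0 hq2.le hpc1.le (edgesIn G F0)
            (tail_mono (k + 1) x)
          refine (h2.trans h1).trans (le_of_eq ?_)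
          push_cast
          rw [mul_one_div]
      _ = A * ∑ k ∈ Finset.range n, 1 / √((k : ℝ) + 1) := by rw [Finset.mul_sum]
      _ ≤ A * (2 * √(n : ℝ)) := mul_le_mul_of_nonneg_left (sum_inv_sqrt_le n) hA.le
      _ = _ := by ring
  have e6 : vol G q (x, F0) = Ex q Λ (fun S => (csz S x : ℝ) * (1 - ind (n ≤ csz S x))) +
      Ex q Λ (fun S => (csz S x : ℝ) * ind (n ≤ csz S x)) := by
    rw [← Vale.Agent.P151.Ex_add]
    unfold vol
    exact Vale.Agent.P151.Ex_congr q fun S _ => by ring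
  have e7 : c0 * chi G q / 2 ≤ Ex q Λ (fun S => (csz S x : ℝ) * ind (n ≤ csz S x)) := by
    linarith only [e3, e4, e5, e6]
  have e8 := Ex_cauchy hq0 hq11 Λ (fun S => (csz S x : ℝ)) (fun S => ind (n ≤ csz S x))
  have e9 : Ex q Λ (fun S => (ind (n ≤ csz S x)) ^ 2) = P := by
    refine Vale.Agent.P151.Ex_congr q fun S _ => ?_
    by_cases h : n ≤ csz S x
    · rw [ind_true h, one_pow]
    · rw [ind_false h]; norm_num
  rw [e9] at e8
  have e10 : Ex q Λ (fun S => (csz S x : ℝ) ^ 2) ≤ chi G q ^ 3 :=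
    second_moment G hq0 hq11 (fun z => csz_le_chi hs z.1 z.2) x F0
  have hP0 : 0 ≤ P := tail_nonneg hq0 hq11 n F0 x
  have e11 : (c0 * chi G q / 2) ^ 2 ≤ chi G q ^ 3 * P := by
    refine (pow_le_pow_left₀ (by positivity) e7 2).trans (e8.trans ?_)
    exact mul_le_mul_of_nonneg_right e10 hP0
  have e12 : c0 ^ 2 / 4 ≤ chi G q * P := by
    have h1 : chi G q ^ 2 * (c0 ^ 2 / 4) ≤ chi G q ^ 2 * (chi G q * P) := by
      calc chi G q ^ 2 * (c0 ^ 2 / 4) = (c0 * chi G q / 2) ^ 2 := by ring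
        _ ≤ chi G q ^ 3 * P := e11
        _ = _ := by ring
    exact le_of_mul_le_mul_left h1 (by positivity)
  have e13 : c0 ^ 2 / 4 * (κ / C) / √(n : ℝ) ≤ P := by
    have h1 : chi G q * P ≤ C / (κ / √(n : ℝ)) * P := mul_le_mul_of_nonneg_right e1 hP0
    have h2 : c0 ^ 2 / 4 ≤ C / (κ / √(n : ℝ)) * P := e12.trans h1
    have h3 : C / (κ / √(n : ℝ)) * P = (C * √(n : ℝ) / κ) * P := by
      congr 1
      field_simp
    rw [h3] at h2
    rw [div_le_iff₀ hsq]
    calc c0 ^ 2 / 4 * (κ / C) ≤ (C * √(n : ℝ) / κ) * P * (κ / C) :=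
          mul_le_mul_of_nonneg_right h2 (by positivity)
      _ = P * √(n : ℝ) := by field_simp
  refine e13.trans ?_
  refine le_trans ?_ (Vale.Agent.P151.le_EV (G := G) hpc0.le hpc1.le
    (fun S => ind_le_one (n ≤ csz S x)) F0)
  exact Vale.Agent.P151.Ex_mono_p hq0 hq2.le hpc1.le _ (tail_mono n x)

end Vale.Agent.P165.H177
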