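import Vale.Agent.P165.H199.Mom
import Vale.Agent.P165.H177.Up

/-!
# The intrinsic one-arm upper bound (Kozma–Nachmias induction)

`TailUp G → RadUp G`: explore the intrinsic ball around `x` up to a thin level.
-/

set_option autoImplicit false
set_option linter.unusedSectionVars false

open Finset

namespace Vale.Agent.P165.H177

open Vale.Agent.P151 (Ex Cn cl csz edgesIn EV con tau)
open Vale.Agent.P165.LF
open Vale.Agent.P165.H199

variable {V : Type} [DecidableEq V] {G : SimpleGraph V}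

/-- The intrinsic ball, recursively. -/
def bl (S : Finset (Sym2 V)) (x : V) : ℕ → Set V
  | 0 => {x}
  | n + 1 => {y | y ∈ bl S x n ∨ ∃ u ∈ bl S x n, s(u, y) ∈ S}

theorem bl_succ {S : Finset (Sym2 V)} {x y : V} {n : ℕ} :
    y ∈ bl S x (n + 1) ↔ y ∈ bl S x n ∨ ∃ u ∈ bl S x n, s(u, y) ∈ S := Iff.rfl

theorem bl_mono_n {S : Finset (Sym2 V)} {x : V} {m n : ℕ} (h : m ≤ n) : bl S x m ⊆ bl S x n := by
  induction h with
  | refl => exact subset_rfl
  | step _ ih => exact ih.trans fun y hy => bl_succ.2 (Or.inl hy)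

theorem bl_mono_S {S T : Finset (Sym2 V)} (h : S ⊆ T) (x : V) (n : ℕ) : bl S x n ⊆ bl T x n := by
  induction n with
  | zero => exact subset_rfl
  | succ n ih =>
    intro y hy
    rw [bl_succ] at hy ⊢
    rcases hy with hy | ⟨u, hu, he⟩
    · exact Or.inl (ih hy)
    · exact Or.inr ⟨u, ih hu, h he⟩

theorem self_mem_bl (S : Finset (Sym2 V)) (x : V) (n : ℕ) : x ∈ bl S x n :=
  bl_mono_n (Nat.zero_le n) (Set.mem_singleton x)

theorem Cn_of_mem_bl {S : Finset (Sym2 V)} {x y : V} {n : ℕ} (h : y ∈ bl S x n) : Cn S x y := by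
  induction n generalizing y with
  | zero =>
    rw [show y = x from h]
    exact Cn.refl _ _
  | succ n ih =>
    rcases bl_succ.1 h with h | ⟨u, hu, he⟩
    · exact ih h
    · exact (ih hu).trans (Vale.Agent.P151.Cn_of_mem he)

theorem bl_trans {S : Finset (Sym2 V)} {x y z : V} {m n : ℕ} (h : y ∈ bl S x m)
    (h' : z ∈ bl S y n) : z ∈ bl S x (m + n) := by
  induction n generalizing z with
  | zero =>
    rw [show z = y from h']
    exact h
  | succ n ih =>
    rw [← add_assoc, bl_succ]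
    rcases bl_succ.1 h' with h' | ⟨u, hu, he⟩
    · exact Or.inl (ih h')
    · exact Or.inr ⟨u, ih hu, he⟩

theorem mem_bl_of_walk {S : Finset (Sym2 V)} {x u y : V} (w : (Vale.Agent.P151.gr S).Walk u y)
    {m : ℕ} (h : u ∈ bl S x m) : y ∈ bl S x (m + w.length) := by
  induction w generalizing m with
  | nil => exact h
  | @cons a b c hadj w ih =>
    have h1 : b ∈ bl S x (m + 1) := bl_succ.2 (Or.inr ⟨a, h, (Vale.Agent.P151.gr_adj.1 hadj).1⟩)
    have h2 := ih h1
    rw [SimpleGraph.Walk.length_cons]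
    have h3 : m + (w.length + 1) = m + 1 + w.length := by omega
    rw [h3]
    exact h2

theorem mem_bl_iff {S : Finset (Sym2 V)} {x y : V} {n : ℕ} :
    y ∈ bl S x n ↔ ∃ w : (Vale.Agent.P151.gr S).Walk x y, w.length ≤ n := by
  constructor
  · intro h
    induction n generalizing y with
    | zero =>
      have h1 : y = x := h
      subst h1
      exact ⟨SimpleGraph.Walk.nil, le_rfl⟩
    | succ n ih =>
      rcases bl_succ.1 h with h | ⟨u, hu, he⟩
      · obtain ⟨w, hw⟩ := ih h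
        exact ⟨w, hw.trans (Nat.le_succ n)⟩
      · obtain ⟨w, hw⟩ := ih hu
        by_cases huy : u = y
        · subst huy
          exact ⟨w, hw.trans (Nat.le_succ n)⟩
        · refine ⟨w.concat (Vale.Agent.P151.gr_adj.2 ⟨he, huy⟩), ?_⟩
          rw [SimpleGraph.Walk.length_concat]
          omega
  · rintro ⟨w, hw⟩
    have h1 := mem_bl_of_walk (x := x) w (m := 0) (Set.mem_singleton x)
    rw [Nat.zero_add] at h1
    exact bl_mono_n hw h1

theorem Bn_eq (S : Finset (Sym2 V)) (x : V) (n : ℕ) : Bn S x n = bl S x n := by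
  ext y
  exact mem_bl_iff.symm

theorem rad_iff {S : Finset (Sym2 V)} {x : V} {n : ℕ} (hn : 1 ≤ n) :
    Rad S x n ↔ ∃ y, Cn S x y ∧ y ∉ bl S x (n - 1) := by
  unfold Rad
  refine exists_congr fun y => and_congr_right fun _ => ?_
  rw [mem_bl_iff, not_exists]
  refine forall_congr' fun w => ?_
  omega

theorem rad_mono_n {S : Finset (Sym2 V)} {x : V} {m n : ℕ} (h : m ≤ n) (hr : Rad S x n) :
    Rad S x m := by
  obtain ⟨y, hy, hw⟩ := hr
  exact ⟨y, hy, fun w => h.trans (hw w)⟩

/-- Exploration of general data: if the data `D` are not changed by the edges off the explored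
set `Q`, these edges are fresh. -/
theorem explore_gen {α : Type*} (p : ℝ) (Λ : Finset (Sym2 V)) (D : Finset (Sym2 V) → α)
    (Q : α → Set V)
    (hD : ∀ a (S1 S2 : Finset (Sym2 V)), S2 ⊆ offE Λ (Q a) → (D (S1 ∪ S2) = a ↔ D S1 = a))
    (Φ : α → Finset (Sym2 V) → ℝ) :
    Ex p Λ (fun S => Φ (D S) (S ∩ offE Λ (Q (D S)))) =
      Ex p Λ (fun S => Ex p Λ (fun T => Φ (D S) (T ∩ offE Λ (Q (D S))))) := by
  classical
  have hval : ∀ (g : α → ℝ) {S : Finset (Sym2 V)}, S ⊆ Λ →
      g (D S) = ∑ a ∈ Λ.powerset.image D, ind (D S = a) * g a := by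
    intro g S hS
    rw [Finset.sum_eq_single (D S)]
    · rw [ind_true rfl, one_mul]
    · intro a _ ha
      rw [ind_false (fun h => ha h.symm), zero_mul]
    · intro h
      exact absurd (Finset.mem_image_of_mem D (Finset.mem_powerset.2 hS)) h
  have hsplit : ∀ (a : α) (Ψ : Finset (Sym2 V) → ℝ),
      Ex p Λ (fun S => ind (D S = a) * Ψ (S ∩ offE Λ (Q a))) =
        Ex p (Λ \ offE Λ (Q a)) (fun S => ind (D S = a)) * Ex p (offE Λ (Q a)) Ψ := by
    intro a Ψ
    have hΛ : Λ = (Λ \ offE Λ (Q a)) ∪ offE Λ (Q a) := by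
      rw [Finset.sdiff_union_of_subset (offE_subset Λ (Q a))]
    have hd : Disjoint (Λ \ offE Λ (Q a)) (offE Λ (Q a)) := Finset.sdiff_disjoint
    have h1 : Ex p Λ (fun S => ind (D S = a) * Ψ (S ∩ offE Λ (Q a))) =
        Ex p ((Λ \ offE Λ (Q a)) ∪ offE Λ (Q a))
          (fun S => ind (D S = a) * Ψ (S ∩ offE Λ (Q a))) := by
      rw [← hΛ]
    rw [h1, Vale.Agent.P151.Ex_union p hd]
    rw [← Vale.Agent.P151.Ex_mul_const]
    apply Vale.Agent.P151.Ex_congr
    intro S1 hS1
    rw [← Vale.Agent.P151.Ex_const_mul]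
    apply Vale.Agent.P151.Ex_congr
    intro S2 hS2
    have h3 : (S1 ∪ S2) ∩ offE Λ (Q a) = S2 := by
      rw [Finset.union_inter_distrib_right, Finset.inter_eq_left.2 hS2]
      have : S1 ∩ offE Λ (Q a) = ∅ := by
        rw [← Finset.disjoint_iff_inter_eq_empty]
        exact Finset.disjoint_of_subset_left hS1 hd
      rw [this, Finset.empty_union]
    rw [h3, ind_congr (hD a S1 S2 hS2)]
  have hL : Ex p Λ (fun S => Φ (D S) (S ∩ offE Λ (Q (D S)))) =
      Ex p Λ (fun S => ∑ a ∈ Λ.powerset.image D, ind (D S = a) * Φ a (S ∩ offE Λ (Q a))) := by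
    apply Vale.Agent.P151.Ex_congr
    intro S hS
    exact hval (fun a => Φ a (S ∩ offE Λ (Q a))) hS
  have hR : Ex p Λ (fun S => Ex p Λ (fun T => Φ (D S) (T ∩ offE Λ (Q (D S))))) =
      Ex p Λ (fun S => ∑ a ∈ Λ.powerset.image D,
        ind (D S = a) * Ex p Λ (fun T => Φ a (T ∩ offE Λ (Q a)))) := by
    apply Vale.Agent.P151.Ex_congr
    intro S hS
    exact hval (fun a => Ex p Λ (fun T => Φ a (T ∩ offE Λ (Q a)))) hS
  rw [hL, hR, Vale.Agent.P151.Ex_sum, Vale.Agent.P151.Ex_sum]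
  apply Finset.sum_congr rfl
  intro a _
  have h5 : Ex p Λ (fun S => ind (D S = a)) =
      Ex p (Λ \ offE Λ (Q a)) (fun S => ind (D S = a)) := by
    have := hsplit a (fun _ => 1)
    simpa using this
  rw [hsplit a (Φ a), Vale.Agent.P151.Ex_mul_const, h5, Ex_offE]

/-- The balls up to radius `j + 1` do not depend on the edges off the ball of radius `j`. -/
theorem bl_union_eq {Λ S1 S2 : Finset (Sym2 V)} {Q : Set V} (h2 : S2 ⊆ offE Λ Q) {x : V} {j : ℕ}
    (h : bl S1 x j = Q ∨ bl (S1 ∪ S2) x j = Q) {i : ℕ} (hi : i ≤ j + 1) :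
    bl (S1 ∪ S2) x i = bl S1 x i := by
  induction i with
  | zero => rfl
  | succ i ih =>
    have hi' : i ≤ j := by omega
    have hih := ih (by omega)
    have hsub : bl S1 x i ⊆ Q := by
      rcases h with h | h
      · rw [← h]; exact bl_mono_n hi'
      · rw [← h, ← hih]; exact bl_mono_n hi'
    ext y
    rw [bl_succ, bl_succ, hih]
    refine or_congr_right (exists_congr fun u => and_congr_right fun hu => ?_)
    rw [Finset.mem_union]
    refine or_iff_left fun he => ?_
    exact (mem_offE.1 (h2 he)).2 u (Sym2.mem_mk_left u y) (hsub hu)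

/-- The explored data: all balls up to radius `j + 1`. -/
def bdat (x : V) (j : ℕ) (S : Finset (Sym2 V)) : ℕ → Set V := fun i => bl S x (min i (j + 1))

theorem bdat_union (Λ : Finset (Sym2 V)) (x : V) (j : ℕ) (a : ℕ → Set V)
    (S1 S2 : Finset (Sym2 V)) (h2 : S2 ⊆ offE Λ (a j)) :
    bdat x j (S1 ∪ S2) = a ↔ bdat x j S1 = a := by
  constructor
  · intro h
    have h1 : bl (S1 ∪ S2) x j = a j := by
      have := congrFun h j
      unfold bdat at this
      rwa [min_eq_left (Nat.le_succ j)] at this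
    rw [← h]
    funext i
    exact (bl_union_eq h2 (Or.inr h1) (min_le_right _ _)).symm
  · intro h
    have h1 : bl S1 x j = a j := by
      have := congrFun h j
      unfold bdat at this
      rwa [min_eq_left (Nat.le_succ j)] at this
    rw [← h]
    funext i
    exact bl_union_eq h2 (Or.inl h1) (min_le_right _ _)

/-- The cluster beyond level `j + 1`: a far point is reached, off the ball of radius `j`, from a
point of level `j + 1`. -/
theorem exists_level {Λ S : Finset (Sym2 V)} (hS : S ⊆ Λ) {x y : V} {j : ℕ} (h : Cn S x y)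
    (hy : y ∉ bl S x j) :
    ∃ v, v ∈ bl S x (j + 1) ∧ v ∉ bl S x j ∧ Cn (S ∩ offE Λ (bl S x j)) v y := by
  have key : y ∈ {u | u ∈ bl S x j ∨
      ∃ v, v ∈ bl S x (j + 1) ∧ v ∉ bl S x j ∧ Cn (S ∩ offE Λ (bl S x j)) v u} := by
    refine Vale.Agent.P151.Cn_closed (S := S) ?_ (Or.inl (self_mem_bl S x j)) h
    intro u hu w huw
    by_cases hw : w ∈ bl S x j
    · exact Or.inl hw
    right
    by_cases hu2 : u ∈ bl S x j
    · exact ⟨w, bl_succ.2 (Or.inr ⟨u, hu2, huw⟩), hw, Cn.refl _ _⟩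
    · rcases hu with hu | ⟨v, hv1, hv2, hv3⟩
      · exact absurd hu hu2
      · refine ⟨v, hv1, hv2, hv3.trans (Vale.Agent.P151.Cn_of_mem ?_)⟩
        rw [Finset.mem_inter, mem_offE]
        refine ⟨huw, hS huw, fun z hz => ?_⟩
        rcases Sym2.mem_iff.1 hz with rfl | rfl
        · exact hu2
        · exact hw
  rcases key with h | h
  · exact absurd h hy
  · exact h

/-- The size of level `i` read off the data. -/
noncomputable def lsz (a : ℕ → Set V) (i : ℕ) : ℕ := (a i \ a (i - 1)).ncard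

/-- `j` is the first thin level among the levels from `r` on, read off the data; the threshold
is `t`. -/
def Fst (t : ℝ) (r : ℕ) (a : ℕ → Set V) (j : ℕ) : Prop :=
  (lsz a j : ℝ) < t ∧ (∀ i, r ≤ i → i < j → ¬ (lsz a i : ℝ) < t) ∧ (a j \ a (j - 1)).Nonempty

theorem bl_subset_cl (S : Finset (Sym2 V)) (x : V) (n : ℕ) : bl S x n ⊆ (cl S x : Set V) :=
  fun _ hy => Finset.mem_coe.2 (Vale.Agent.P151.mem_cl.2 (Cn_of_mem_bl hy))

theorem bl_finite (S : Finset (Sym2 V)) (x : V) (n : ℕ) : (bl S x n).Finite :=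
  (Finset.finite_toSet _).subset (bl_subset_cl S x n)

/-- The levels are disjoint parts of the cluster. -/
theorem sum_lsz_le (S : Finset (Sym2 V)) (x : V) (r : ℕ) :
    ∑ i ∈ Finset.Ico (r + 1) (2 * r + 1), lsz (fun n => bl S x n) i ≤ csz S x := by
  classical
  have key : ∀ m n : ℕ, m ≤ n → ∑ i ∈ Finset.Ico (m + 1) (n + 1), lsz (fun n => bl S x n) i +
      (bl S x m).ncard ≤ (bl S x n).ncard := by
    intro m n h
    induction n, h using Nat.le_induction with
    | base => simp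
    | succ n hmn ih =>
      rw [Finset.sum_Ico_succ_top (by omega)]
      have h1 : lsz (fun n => bl S x n) (n + 1) + (bl S x n).ncard = (bl S x (n + 1)).ncard := by
        unfold lsz
        simp only [Nat.add_sub_cancel]
        exact Set.ncard_sdiff_add_ncard_of_subset (bl_mono_n (Nat.le_succ n))
          (bl_finite S x (n + 1))
      omega
  have h1 := key r (2 * r) (by omega)
  have h2 : (bl S x (2 * r)).ncard ≤ csz S x := by
    have h3 := Set.ncard_le_ncard (bl_subset_cl S x (2 * r)) (Finset.finite_toSet _)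
    rwa [Set.ncard_coe_finset] at h3
  omega

theorem lsz_bdat (S : Finset (Sym2 V)) (x : V) {j i : ℕ} (hi : i ≤ j + 1) :
    lsz (bdat x j S) i = lsz (fun n => bl S x n) i := by
  unfold lsz bdat
  rw [min_eq_left hi, min_eq_left (by omega)]

theorem Fst_bdat (S : Finset (Sym2 V)) (x : V) (t : ℝ) (r j : ℕ) :
    Fst t r (bdat x j S) (j + 1) ↔ Fst t r (fun n => bl S x n) (j + 1) := by
  unfold Fst
  rw [lsz_bdat S x le_rfl]
  refine and_congr_right fun _ => and_congr ?_ ?_
  · refine forall_congr' fun i => forall_congr' fun _ => ?_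
    constructor
    · intro h hi
      rw [← lsz_bdat S x (by omega : i ≤ j + 1)]
      exact h hi
    · intro h hi
      rw [lsz_bdat S x (by omega : i ≤ j + 1)]
      exact h hi
  · unfold bdat
    rw [min_self, min_eq_left (by omega)]

/-- The pointwise decomposition. -/
theorem rad_pointwise {Λ S : Finset (Sym2 V)} (hS : S ⊆ Λ) {x : V} {F' : Finset V}
    (hF' : ∀ n, bl S x n ⊆ (F' : Set V)) {r : ℕ} (hr : 1 ≤ r) {t : ℝ}
    (ht : (csz S x : ℝ) < t * r) (h : Rad S x (3 * r + 1)) :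
    ∃ j ∈ Finset.Ico r (2 * r), Fst t (r + 1) (fun n => bl S x n) (j + 1) ∧
      ∃ v ∈ F', v ∈ bl S x (j + 1) ∧ v ∉ bl S x j ∧
        Rad (S ∩ offE Λ (bl S x j)) v r := by
  classical
  -- a thin level
  have h1 : ∃ i, i ∈ Finset.Ico (r + 1) (2 * r + 1) ∧ (lsz (fun n => bl S x n) i : ℝ) < t := by
    by_contra hno
    push Not at hno
    have h2 : ∑ i ∈ Finset.Ico (r + 1) (2 * r + 1), t ≤
        ∑ i ∈ Finset.Ico (r + 1) (2 * r + 1), (lsz (fun n => bl S x n) i : ℝ) :=
      Finset.sum_le_sum fun i hi => hno i hi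
    rw [Finset.sum_const, Nat.card_Ico, nsmul_eq_mul] at h2
    have h3 : ((2 * r + 1 - (r + 1) : ℕ) : ℝ) = r := by
      congr 1
      omega
    rw [h3] at h2
    have h4 : (∑ i ∈ Finset.Ico (r + 1) (2 * r + 1), (lsz (fun n => bl S x n) i : ℝ)) ≤
        csz S x := by
      exact_mod_cast sum_lsz_le S x r
    linarith only [h2, h4, ht]
  obtain ⟨hi1, hi2⟩ := Nat.find_spec h1
  have hmin : ∀ i, i < Nat.find h1 → ¬ (i ∈ Finset.Ico (r + 1) (2 * r + 1) ∧
      (lsz (fun n => bl S x n) i : ℝ) < t) := fun i hi => Nat.find_min h1 hi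
  set j' := Nat.find h1 with hj'
  rw [Finset.mem_Ico] at hi1
  obtain ⟨j, hj⟩ : ∃ j, j' = j + 1 := ⟨j' - 1, by omega⟩
  rw [hj] at hi1 hi2 hmin
  obtain ⟨y, hxy, hy⟩ := (rad_iff (by omega)).1 h
  have hyj : y ∉ bl S x j := fun hc => hy (bl_mono_n (by omega) hc)
  obtain ⟨v, hv1, hv2, hv3⟩ := exists_level hS hxy hyj
  refine ⟨j, Finset.mem_Ico.2 (by omega), ⟨hi2, ?_, ⟨v, hv1, ?_⟩⟩, v, ?_, hv1, hv2, ?_⟩
  · intro i hi hij hlt
    exact hmin i hij ⟨Finset.mem_Ico.2 (by omega), hlt⟩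
  · simpa using hv2
  · exact Finset.mem_coe.1 (hF' _ hv1)
  · rw [rad_iff hr]
    refine ⟨y, hv3, fun hc => hy ?_⟩
    have h5 := bl_trans hv1 (bl_mono_S Finset.inter_subset_left v _ hc)
    exact bl_mono_n (by omega) h5

/-- At most one level is the first thin one, and it shows a large radius. -/
theorem sum_Fst_le {S : Finset (Sym2 V)} {x : V} {r : ℕ} (t : ℝ) :
    ∑ j ∈ Finset.Ico r (2 * r), ind (Fst t (r + 1) (fun n => bl S x n) (j + 1)) ≤
      ind (Rad S x r) := by
  classical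
  by_cases hex : ∃ j ∈ Finset.Ico r (2 * r), Fst t (r + 1) (fun n => bl S x n) (j + 1)
  · obtain ⟨j, hj, hF⟩ := hex
    rw [Finset.sum_eq_single j]
    · refine ind_mono fun hF => ?_
      obtain ⟨-, -, v, hv1, hv2⟩ := hF
      simp only [Nat.add_sub_cancel] at hv2
      rw [Finset.mem_Ico] at hj
      rcases Nat.eq_zero_or_pos r with h0 | h0
      · exact ⟨x, Cn.refl _ _, fun w => by omega⟩
      · rw [rad_iff h0]
        exact ⟨v, Cn_of_mem_bl hv1, fun hc => hv2 (bl_mono_n (by omega) hc)⟩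
    · intro i hi hij
      refine ind_false fun hFi => ?_
      rw [Finset.mem_Ico] at hi hj
      rcases lt_or_gt_of_ne hij with h | h
      · exact hF.2.1 (i + 1) (by omega) (by omega) hFi.1
      · exact hFi.2.1 (j + 1) (by omega) (by omega) hF.1
    · intro h
      exact absurd hj h
  · rw [Finset.sum_eq_zero fun j hj => ind_false fun h => hex ⟨j, hj, h⟩]
    exact ind_nonneg _

/-- One step of the induction. -/
theorem rad_step {p : ℝ} (h0 : 0 ≤ p) (h1 : p ≤ 1) {g t : ℝ} (ht : 0 ≤ t) (hg : 0 ≤ g) {r : ℕ}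
    (hr : 1 ≤ r)
    (hind : ∀ (x : V) (F : Finset V) (Λ : Finset (Sym2 V)), Λ ⊆ edgesIn G F →
      Ex p Λ (fun S => ind (Rad S x r)) ≤ g)
    (x : V) (F : Finset V) (Λ : Finset (Sym2 V)) (hΛ : Λ ⊆ edgesIn G F) :
    Ex p Λ (fun S => ind (Rad S x (3 * r + 1))) ≤
      Ex p (edgesIn G F) (fun S => ind (⌈t * r⌉₊ ≤ csz S x)) + t * g ^ 2 := by
  classical
  set F' : Finset V := insert x F with hF'
  have hbl : ∀ S ⊆ Λ, ∀ n, bl S x n ⊆ (F' : Set V) := by
    intro S hS n y hy
    refine Vale.Agent.P151.Cn_closed (S := S) (A := (F' : Set V)) ?_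
      (Finset.mem_coe.2 (Finset.mem_insert_self x F)) (Cn_of_mem_bl hy)
    intro u _ v huv
    exact Finset.mem_coe.2 (Finset.mem_insert_of_mem
      (Vale.Agent.P151.mk_mem_edgesIn.1 (hΛ (hS huv))).2.2)
  -- the term of level `j + 1`
  set W : ℕ → (ℕ → Set V) → Finset (Sym2 V) → ℝ := fun j a U =>
    ind (Fst t (r + 1) a (j + 1)) *
      ∑ v ∈ F', ind (v ∈ a (j + 1) ∧ v ∉ a j) * ind (Rad U v r) with hW
  have e1 : Ex p Λ (fun S => ind (Rad S x (3 * r + 1))) ≤
      Ex p Λ (fun S => ind (⌈t * r⌉₊ ≤ csz S x) +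
        ∑ j ∈ Finset.Ico r (2 * r), W j (bdat x j S) (S ∩ offE Λ (bdat x j S j))) := by
    refine Vale.Agent.P151.Ex_mono h0 h1 fun S hS => ?_
    have hW0 : ∀ j a U, 0 ≤ W j a U := fun j a U =>
      mul_nonneg (ind_nonneg _) (Finset.sum_nonneg fun v _ =>
        mul_nonneg (ind_nonneg _) (ind_nonneg _))
    by_cases hR : Rad S x (3 * r + 1)
    · by_cases hc : ⌈t * r⌉₊ ≤ csz S x
      · rw [ind_true hR, ind_true hc]
        have := Finset.sum_nonneg fun j (_ : j ∈ Finset.Ico r (2 * r)) =>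
          hW0 j (bdat x j S) (S ∩ offE Λ (bdat x j S j))
        linarith only [this]
      · rw [ind_true hR, ind_false hc, zero_add]
        have hc2 : (csz S x : ℝ) < t * r := Nat.lt_ceil.1 (not_le.1 hc)
        obtain ⟨j, hj, hF, v, hvF, hv1, hv2, hv3⟩ :=
          rad_pointwise hS (hbl S hS) hr hc2 hR
        have hbj : bdat x j S j = bl S x j := by
          unfold bdat; rw [min_eq_left (Nat.le_succ j)]
        have hbj1 : bdat x j S (j + 1) = bl S x (j + 1) := by
          unfold bdat; rw [min_self]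
        refine le_trans ?_ (Finset.single_le_sum (f := fun j =>
          W j (bdat x j S) (S ∩ offE Λ (bdat x j S j))) (fun j _ => hW0 _ _ _) hj)
        simp only [hW]
        rw [ind_true ((Fst_bdat S x t (r + 1) j).2 hF), one_mul, hbj, hbj1]
        refine le_trans ?_ (Finset.single_le_sum (f := fun v =>
          ind (v ∈ bl S x (j + 1) ∧ v ∉ bl S x j) * ind (Rad (S ∩ offE Λ (bl S x j)) v r))
          (fun v _ => mul_nonneg (ind_nonneg _) (ind_nonneg _)) hvF)
        rw [ind_true ⟨hv1, hv2⟩, ind_true hv3, one_mul]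
    · rw [ind_false hR]
      exact add_nonneg (ind_nonneg _) (Finset.sum_nonneg fun j _ => hW0 _ _ _)
  refine e1.trans ?_
  rw [Vale.Agent.P151.Ex_add, Vale.Agent.P151.Ex_sum]
  refine add_le_add ?_ ?_
  · exact Vale.Agent.P151.Ex_mono_set h0 h1 hΛ (fun S T h => ind_mono fun h' =>
      h'.trans (Vale.Agent.P151.csz_mono h x))
  · -- each level
    have e2 : ∀ j, Ex p Λ (fun S => W j (bdat x j S) (S ∩ offE Λ (bdat x j S j))) ≤
        Ex p Λ (fun S => ind (Fst t (r + 1) (fun n => bl S x n) (j + 1))) * (t * g) := by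
      intro j
      rw [explore_gen p Λ (bdat x j) (fun a => a j) (bdat_union Λ x j) (W j),
        ← Vale.Agent.P151.Ex_mul_const]
      refine Vale.Agent.P151.Ex_mono h0 h1 fun S hS => ?_
      simp only [hW]
      rw [Vale.Agent.P151.Ex_const_mul, Vale.Agent.P151.Ex_sum, ind_congr (Fst_bdat S x t (r + 1) j)]
      have hbj : bdat x j S j = bl S x j := by
        unfold bdat; rw [min_eq_left (Nat.le_succ j)]
      have hbj1 : bdat x j S (j + 1) = bl S x (j + 1) := by
        unfold bdat; rw [min_self]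
      rw [hbj, hbj1]
      by_cases hF : Fst t (r + 1) (fun n => bl S x n) (j + 1)
      · rw [ind_true hF, one_mul, one_mul]
        have e3 : ∀ v ∈ F', Ex p Λ (fun T => ind (v ∈ bl S x (j + 1) ∧ v ∉ bl S x j) *
            ind (Rad (T ∩ offE Λ (bl S x j)) v r)) ≤
            ind (v ∈ bl S x (j + 1) ∧ v ∉ bl S x j) * g := by
          intro v _
          rw [Vale.Agent.P151.Ex_const_mul,
            Ex_offE p Λ (bl S x j) (fun U => ind (Rad U v r))]
          exact mul_le_mul_of_nonneg_left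
            (hind v F _ ((offE_subset Λ _).trans hΛ)) (ind_nonneg _)
        refine (Finset.sum_le_sum e3).trans ?_
        rw [← Finset.sum_mul]
        refine mul_le_mul_of_nonneg_right ?_ hg
        have e4 : ∑ v ∈ F', ind (v ∈ bl S x (j + 1) ∧ v ∉ bl S x j) ≤
            (lsz (fun n => bl S x n) (j + 1) : ℝ) := by
          have e5 : ∑ v ∈ F', ind (v ∈ bl S x (j + 1) ∧ v ∉ bl S x j) =
              ((F'.filter fun v => v ∈ bl S x (j + 1) ∧ v ∉ bl S x j).card : ℝ) := by
            rw [Finset.card_filter, Nat.cast_sum]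
            refine Finset.sum_congr rfl fun v _ => ?_
            by_cases hv : v ∈ bl S x (j + 1) ∧ v ∉ bl S x j
            · rw [ind_true hv, if_pos hv, Nat.cast_one]
            · rw [ind_false hv, if_neg hv, Nat.cast_zero]
          rw [e5]
          unfold lsz
          simp only [Nat.add_sub_cancel]
          rw [← Set.ncard_coe_finset, Nat.cast_le]
          refine Set.ncard_le_ncard ?_ ((bl_finite S x (j + 1)).subset Set.sdiff_subset)
          intro v hv
          exact (Finset.mem_filter.1 (Finset.mem_coe.1 hv)).2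
        exact e4.trans hF.1.le
      · rw [ind_false hF, zero_mul, zero_mul]
    refine (Finset.sum_le_sum fun j _ => e2 j).trans ?_
    rw [← Finset.sum_mul, ← Vale.Agent.P151.Ex_sum]
    have e6 : Ex p Λ (fun S => ∑ j ∈ Finset.Ico r (2 * r),
        ind (Fst t (r + 1) (fun n => bl S x n) (j + 1))) ≤ g :=
      (Vale.Agent.P151.Ex_mono h0 h1 fun S _ => sum_Fst_le t).trans (hind x F Λ hΛ)
    calc _ ≤ g * (t * g) := mul_le_mul_of_nonneg_right e6 (mul_nonneg ht hg)
      _ = _ := by ring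

/-- The induction over the scales `4 ^ k`. -/
theorem rad_pow {p : ℝ} (h0 : 0 ≤ p) (h1 : p ≤ 1) {C A : ℝ} (hC : 0 < C) (hA1 : 1 ≤ A)
    (hA : 512 * C ^ 2 ≤ A)
    (htail : ∀ n : ℕ, 1 ≤ n → ∀ (x : V) (F : Finset V),
      Ex p (edgesIn G F) (fun S => ind (n ≤ csz S x)) ≤ C / √(n : ℝ)) (k : ℕ) :
    ∀ (x : V) (F : Finset V) (Λ : Finset (Sym2 V)), Λ ⊆ edgesIn G F →
      Ex p Λ (fun S => ind (Rad S x (4 ^ k))) ≤ A / 4 ^ k := by
  have hA0 : 0 < A := lt_of_lt_of_le one_pos hA1
  induction k with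
  | zero =>
    intro x F Λ _
    simp only [pow_zero, div_one]
    exact (Vale.Agent.P151.Ex_le_const h0 h1 fun S _ => ind_le_one _).trans hA1
  | succ k ih =>
    intro x F Λ hΛ
    set r : ℕ := 4 ^ k with hr
    have hr1 : 1 ≤ r := Nat.one_le_pow _ _ (by norm_num)
    have hrR : (r : ℝ) = 4 ^ k := by rw [hr]; push_cast; rfl
    have hr0 : (0 : ℝ) < r := by exact_mod_cast hr1
    set t : ℝ := r / (8 * A) with ht
    have ht0 : 0 < t := by positivity
    have hstep := rad_step (G := G) h0 h1 ht0.le (g := A / r) (by positivity) hr1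
      (fun x F Λ h => by rw [hrR]; exact ih x F Λ h) x F Λ hΛ
    have hmono : Ex p Λ (fun S => ind (Rad S x (4 ^ (k + 1)))) ≤
        Ex p Λ (fun S => ind (Rad S x (3 * r + 1))) := by
      refine Vale.Agent.P151.Ex_mono h0 h1 fun S _ => ind_mono (rad_mono_n ?_)
      rw [pow_succ, ← hr]
      omega
    refine hmono.trans (hstep.trans ?_)
    have htr : 0 < t * r := mul_pos ht0 hr0
    have hceil : 1 ≤ ⌈t * r⌉₊ := Nat.one_le_iff_ne_zero.2 (Nat.ceil_pos.2 htr).ne'
    have e1 := htail ⌈t * r⌉₊ hceil x F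
    have e2 : C / √((⌈t * r⌉₊ : ℕ) : ℝ) ≤ C / √(t * r) :=
      div_le_div_of_nonneg_left hC.le (Real.sqrt_pos.2 htr) (Real.sqrt_le_sqrt (Nat.le_ceil _))
    have e3 : √(t * r) = r / √(8 * A) := by
      have : t * r = (r : ℝ) ^ 2 / (8 * A) := by rw [ht]; ring
      rw [this, Real.sqrt_div (sq_nonneg _), Real.sqrt_sq hr0.le]
    have h8A : 0 < √(8 * A) := Real.sqrt_pos.2 (by positivity)
    have e4 : C * √(8 * A) ≤ A / 8 := by
      have h5 : (C * √(8 * A)) ^ 2 ≤ (A / 8) ^ 2 := by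
        rw [mul_pow, Real.sq_sqrt (by positivity)]
        nlinarith only [hA, hA0]
      exact le_of_sq_le_sq h5 (by positivity)
    have e5 : C / √(t * r) ≤ A / 8 / r := by
      rw [e3, div_div_eq_mul_div]
      exact div_le_div_of_nonneg_right e4 hr0.le
    have e6 : t * (A / r) ^ 2 = A / 8 / r := by
      rw [ht]
      field_simp
    have e7 : A / 4 ^ (k + 1) = A / 8 / r + A / 8 / r := by
      rw [hrR, pow_succ]
      field_simp
      norm_num
    rw [e6, e7]
    exact add_le_add (e1.trans (e2.trans e5)) le_rfl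

/-- The intrinsic one-arm upper bound. -/
theorem radUp_of (h0 : 0 ≤ pc G) (h1 : pc G ≤ 1) (hU : TailUp G) : RadUp G := by
  obtain ⟨C, hC, htail⟩ := hU
  set A := max 1 (512 * C ^ 2) with hA
  have hA1 : 1 ≤ A := le_max_left _ _
  have hA2 : 512 * C ^ 2 ≤ A := le_max_right _ _
  have hA0 : 0 < A := lt_of_lt_of_le one_pos hA1
  refine ⟨4 * A, by positivity, fun n hn x F Λ hΛ => ?_⟩
  have hn0 : (0 : ℝ) < n := by exact_mod_cast hn
  set k := Nat.log 4 n with hk
  have h4 : 4 ^ k ≤ n := Nat.pow_log_le_self 4 (by omega)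
  have h5 : n < 4 ^ (k + 1) := Nat.lt_pow_succ_log_self (by norm_num) n
  have h6 := rad_pow (G := G) h0 h1 hC hA1 hA2 htail k x F Λ hΛ
  have h7 : Ex (pc G) Λ (fun S => ind (Rad S x n)) ≤ Ex (pc G) Λ (fun S => ind (Rad S x (4 ^ k))) :=
    Vale.Agent.P151.Ex_mono h0 h1 fun S _ => ind_mono (rad_mono_n h4)
  refine h7.trans (h6.trans ?_)
  have h8 : (n : ℝ) ≤ 4 * 4 ^ k := by
    have : (n : ℝ) < 4 ^ (k + 1) := by exact_mod_cast h5
    rw [pow_succ] at this
    linarith only [this]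
  have h9 : (0 : ℝ) < 4 ^ k := by positivity
  rw [div_le_div_iff₀ h9 hn0]
  nlinarith only [h8, hA0]

/-- Block (I2): the intrinsic one-arm upper bound on nonamenable quasi-transitive graphs. -/
theorem radUp [Infinite V] [G.LocallyFinite] (hG : G.Connected) (hqt : IsQuasiTransitive G)
    (hna : 0 < vertexCheeger G) (hU : TailUp G) : RadUp G :=
  radUp_of (Vale.Agent.P165.H794.pc_pos (G := G) hG hqt).le (pc_lt_one hG hqt hna).le hU

end Vale.Agent.P165.H177
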