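import Vale.Agent.P165.H177.SubTail
import Vale.Agent.P165.H161.MF5

/-!
# The subcritical scaling window for the measure, every universe
-/

set_option autoImplicit false
set_option linter.unusedSectionVars false

open Finset MeasureTheory ProbabilityTheory
open scoped ENNReal

namespace Vale.Agent.P165.H177

open Vale.Agent.P151 (Ex Cn cl csz edgesIn EV con tau)
open Vale.Agent.P165.LF Vale.Agent.P165.BS Vale.Agent.P165.BS2 Vale.Agent.P165.H199

/-- The tail of the cluster size below `p_c`: upper bound with the scaling window, and matching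
lower bound inside the window. -/
def SubTailConclusion.{u} {V : Type u} (G : SimpleGraph V) : Prop :=
  ∃ c C : ℝ, 0 < c ∧ 0 < C ∧ ∀ p : unitInterval, (p : ℝ) < pc G → ∀ (x : V) (n : ℕ), 1 ≤ n →
    clusterTail G p x n ≤ ENNReal.ofReal (C / √(n : ℝ) * Real.exp (-(c * (pc G - p) ^ 2 * n))) ∧
    ((n : ℝ) * (pc G - p) ^ 2 ≤ c → ENNReal.ofReal (c / √(n : ℝ)) ≤ clusterTail G p x n)

theorem subTail0 {V : Type} [DecidableEq V] {G : SimpleGraph V} [G.LocallyFinite] [Infinite V]
    (hG : G.Connected) (hqt : IsQuasiTransitive G) (hna : 0 < vertexCheeger G) :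
    SubTailConclusion G := by
  have hU : TailUp G := (Vale.Agent.P165.H161.MF.blocks hG hqt hna).1
  obtain ⟨c1, C, hc1, hC, h1⟩ := subTailUp hG hqt hna hU
  obtain ⟨c2, hc2, h2⟩ := subTailLow hG hqt hna hU
  refine ⟨min c1 c2, C, lt_min hc1 hc2, hC, fun p hp x n hn => ?_⟩
  have hn0 : (0 : ℝ) < n := by exact_mod_cast hn
  have hsq : 0 < √(n : ℝ) := Real.sqrt_pos.2 hn0
  rw [Vale.Agent.P165.H161.MF.clusterTail_eq G hG]
  constructor
  · refine ENNReal.ofReal_le_ofReal (Vale.Agent.P151.EV_le fun F => ?_)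
    refine (h1 p p.2.1 hp n hn x F).trans ?_
    refine mul_le_mul_of_nonneg_left (Real.exp_le_exp.2 (neg_le_neg ?_)) (by positivity)
    exact mul_le_mul_of_nonneg_right
      (mul_le_mul_of_nonneg_right (min_le_left _ _) (sq_nonneg _)) hn0.le
  · intro h
    obtain ⟨F, hF⟩ := h2 p p.2.1 hp n hn (h.trans (min_le_right _ _)) x
    refine ENNReal.ofReal_le_ofReal ?_
    refine (div_le_div_of_nonneg_right (min_le_right _ _) hsq.le).trans (hF.trans ?_)
    exact Vale.Agent.P151.le_EV (G := G) p.2.1 p.2.2 (fun S => ind_le_one (n ≤ csz S x)) F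

theorem SubTailConclusion_iso.{u, v} {V : Type u} {W : Type v} {G : SimpleGraph V}
    {H : SimpleGraph W} (φ : G ≃g H) (h : SubTailConclusion H) : SubTailConclusion G := by
  obtain ⟨c, C, hc, hC, h⟩ := h
  rw [pc_iso φ] at h
  refine ⟨c, C, hc, hC, fun p hp x n hn => ?_⟩
  have h' := h p hp (φ x) n hn
  rwa [Vale.Agent.P165.H161.MF.clusterTail_iso φ] at h'

/-- The subcritical tail, every universe. -/
theorem subTail.{u} {V : Type u} [Infinite V] (G : SimpleGraph V) [G.LocallyFinite]
    (hG : G.Connected) (hqt : IsQuasiTransitive G) (hna : 0 < vertexCheeger G) :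
    SubTailConclusion G := by
  have hc : Countable V := countable_of_connected G hG
  obtain ⟨e⟩ : Nonempty (V ≃ ℕ) := by
    have := nonempty_denumerable V
    obtain ⟨d⟩ := this
    exact ⟨d.eqv⟩
  let φ : G ≃g G.map e := SimpleGraph.Iso.map e G
  have hlf : (G.map e).LocallyFinite := fun x =>
    Fintype.ofEquiv _ ((φ.symm.mapNeighborSet x).symm)
  refine SubTailConclusion_iso φ (subTail0 ?_ (isQuasiTransitive_iso φ hqt) ?_)
  · exact φ.connected_iff.1 hG
  · rw [vertexCheeger_iso φ]
    exact hna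

end Vale.Agent.P165.H177
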