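import Vale.Agent.P165.H177.Low
import Vale.Agent.P165.H199.LowDefs

/-!
# The lower bound for finite clusters, near the critical point
-/

set_option autoImplicit false
set_option linter.unusedSectionVars false

open Finset

namespace Vale.Agent.P165.H177

open Vale.Agent.P151 (Ex Cn cl csz edgesIn EV con tau)
open Vale.Agent.P165.LF Vale.Agent.P165.BS Vale.Agent.P165.BS2 Vale.Agent.P165.H794
open Vale.Agent.P165.H199

variable {V : Type} [DecidableEq V] {G : SimpleGraph V}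

/-- `P(n ≤ |K_x| ≤ B n) ≥ c n^(-1/2)` at `p_c`. -/
theorem window_low (h0 : 0 ≤ pc G) (h1 : pc G ≤ 1) {c1 C1 : ℝ} (hc1 : 0 < c1) (hC1 : 0 < C1)
    (hL : ∀ n : ℕ, 1 ≤ n → ∀ x : V,
      c1 / √(n : ℝ) ≤ EV G (pc G) (fun S => ind (n ≤ csz S x)))
    (hU : ∀ n : ℕ, 1 ≤ n → ∀ (x : V) (F : Finset V),
      Ex (pc G) (edgesIn G F) (fun S => ind (n ≤ csz S x)) ≤ C1 / √(n : ℝ)) :
    ∃ B : ℕ, 1 ≤ B ∧ ∀ (x : V) (n : ℕ), 1 ≤ n → ∃ F0 : Finset V, ∀ F : Finset V, F0 ⊆ F →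
      c1 / 4 / √(n : ℝ) ≤
        Ex (pc G) (edgesIn G F) (fun S => ind (n ≤ csz S x ∧ csz S x ≤ B * n)) := by
  obtain ⟨B, hB⟩ := exists_nat_ge (max 1 ((4 * C1 / c1) ^ 2))
  have hB1 : (1 : ℝ) ≤ B := (le_max_left _ _).trans hB
  have hB2 : (4 * C1 / c1) ^ 2 ≤ B := (le_max_right _ _).trans hB
  have hB0 : (0 : ℝ) < B := by linarith only [hB1]
  have hsB : 4 * C1 / c1 ≤ √(B : ℝ) := Real.le_sqrt_of_sq_le hB2
  have hsB0 : 0 < √(B : ℝ) := Real.sqrt_pos.2 hB0
  have hCB : C1 / √(B : ℝ) ≤ c1 / 4 := by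
    rw [div_le_iff₀ hsB0]
    rw [div_le_iff₀ hc1] at hsB
    linarith only [hsB]
  refine ⟨B, by exact_mod_cast hB1, fun x n hn => ?_⟩
  have hn0 : (0 : ℝ) < n := by exact_mod_cast hn
  have hsq : 0 < √(n : ℝ) := Real.sqrt_pos.2 hn0
  have e1 : c1 / 2 / √(n : ℝ) < EV G (pc G) (fun S => ind (n ≤ csz S x)) := by
    refine lt_of_lt_of_le ?_ (hL n hn x)
    exact div_lt_div_of_pos_right (by linarith only [hc1]) hsq
  obtain ⟨F0, hF0⟩ := exists_lt_of_lt_ciSup e1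
  refine ⟨F0, fun F hF => ?_⟩
  have e2 : c1 / 2 / √(n : ℝ) ≤ Ex (pc G) (edgesIn G F) (fun S => ind (n ≤ csz S x)) :=
    hF0.le.trans (Vale.Agent.P151.Ex_edgesIn_mono h0 h1 (tail_mono n x) hF)
  have e3 := hU (B * n + 1) (Nat.le_add_left 1 _) x F
  have e4 : C1 / √((B * n + 1 : ℕ) : ℝ) ≤ c1 / 4 / √(n : ℝ) := by
    have h2 : √(B : ℝ) * √(n : ℝ) ≤ √((B * n + 1 : ℕ) : ℝ) := by
      rw [← Real.sqrt_mul hB0.le]
      refine Real.sqrt_le_sqrt ?_
      push_cast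
      linarith only
    calc C1 / √((B * n + 1 : ℕ) : ℝ) ≤ C1 / (√(B : ℝ) * √(n : ℝ)) :=
          div_le_div_of_nonneg_left hC1.le (by positivity) h2
      _ = C1 / √(B : ℝ) / √(n : ℝ) := by rw [div_div]
      _ ≤ _ := div_le_div_of_nonneg_right hCB hsq.le
  have e5 : Ex (pc G) (edgesIn G F) (fun S => ind (n ≤ csz S x)) ≤
      Ex (pc G) (edgesIn G F) (fun S => ind (n ≤ csz S x ∧ csz S x ≤ B * n)) +
        Ex (pc G) (edgesIn G F) (fun S => ind (B * n + 1 ≤ csz S x)) := by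
    rw [← Vale.Agent.P151.Ex_add]
    refine Vale.Agent.P151.Ex_mono h0 h1 fun S _ => ?_
    by_cases h : B * n + 1 ≤ csz S x
    · rw [ind_true h]
      have := ind_nonneg (n ≤ csz S x ∧ csz S x ≤ B * n)
      have := ind_le_one (n ≤ csz S x)
      linarith
    · have h3 : csz S x ≤ B * n := by omega
      have h4 : ind (n ≤ csz S x) ≤ ind (n ≤ csz S x ∧ csz S x ≤ B * n) :=
        ind_mono fun h5 => ⟨h5, h3⟩
      have := ind_nonneg (B * n + 1 ≤ csz S x)
      linarith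
  have e6 : c1 / 2 / √(n : ℝ) = c1 / 4 / √(n : ℝ) + c1 / 4 / √(n : ℝ) := by ring
  linarith only [e2, e3, e4, e5, e6]

/-- `1 - t ^ k ≤ k (1 - t)`. -/
theorem one_sub_pow_le {t : ℝ} (t0 : 0 ≤ t) (k : ℕ) : 1 - t ^ k ≤ k * (1 - t) := by
  have h := one_add_mul_le_pow (a := t - 1) (by linarith only [t0]) k
  rw [add_sub_cancel] at h
  linarith only [h]

/-- `E[1 - t^|K_x|] ≤ 3 C n^(-1/2)` at `p_c`, with `t = n / (n + 1)`. -/
theorem ghost_crit (h0 : 0 ≤ pc G) (h1 : pc G ≤ 1) {C1 : ℝ} (hC1 : 0 < C1)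
    (hU : ∀ n : ℕ, 1 ≤ n → ∀ (x : V) (F : Finset V),
      Ex (pc G) (edgesIn G F) (fun S => ind (n ≤ csz S x)) ≤ C1 / √(n : ℝ))
    {n : ℕ} (hn : 1 ≤ n) (x : V) (F : Finset V) :
    Ex (pc G) (edgesIn G F) (fun S => 1 - ((n : ℝ) / (n + 1)) ^ csz S x) ≤
      3 * C1 / √(n : ℝ) := by
  have hn0 : (0 : ℝ) < n := by exact_mod_cast hn
  have hsq : 0 < √(n : ℝ) := Real.sqrt_pos.2 hn0
  have hss : √(n : ℝ) * √(n : ℝ) = n := Real.mul_self_sqrt hn0.le
  set t : ℝ := (n : ℝ) / (n + 1) with ht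
  have ht0 : 0 ≤ t := by positivity
  have ht1 : 1 - t = 1 / ((n : ℝ) + 1) := by
    rw [ht]
    field_simp
    ring
  have e1 : Ex (pc G) (edgesIn G F) (fun S => 1 - t ^ csz S x) ≤
      (1 - t) * Ex (pc G) (edgesIn G F) (fun S => (csz S x : ℝ) * (1 - ind (n ≤ csz S x))) +
        Ex (pc G) (edgesIn G F) (fun S => ind (n ≤ csz S x)) := by
    rw [← Vale.Agent.P151.Ex_const_mul, ← Vale.Agent.P151.Ex_add]
    refine Vale.Agent.P151.Ex_mono h0 h1 fun S _ => ?_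
    by_cases h : n ≤ csz S x
    · rw [ind_true h, sub_self, mul_zero, mul_zero, zero_add]
      have := pow_nonneg ht0 (csz S x)
      linarith only [this]
    · rw [ind_false h, _root_.sub_zero, mul_one, add_zero]
      have := one_sub_pow_le ht0 (csz S x)
      linarith only [this]
  have e2 : Ex (pc G) (edgesIn G F) (fun S => (csz S x : ℝ) * (1 - ind (n ≤ csz S x))) ≤
      2 * C1 * √(n : ℝ) := by
    refine (trunc_le (G := G) h0 h1 n F x).trans ?_
    calc ∑ k ∈ Finset.range n, Ex (pc G) (edgesIn G F) (fun S => ind (k + 1 ≤ csz S x))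
        ≤ ∑ k ∈ Finset.range n, C1 * (1 / √((k : ℝ) + 1)) := by
          refine Finset.sum_le_sum fun k _ => ?_
          have h1 := hU (k + 1) (Nat.le_add_left 1 k) x F
          refine h1.trans (le_of_eq ?_)
          push_cast
          rw [mul_one_div]
      _ = C1 * ∑ k ∈ Finset.range n, 1 / √((k : ℝ) + 1) := by rw [Finset.mul_sum]
      _ ≤ C1 * (2 * √(n : ℝ)) := mul_le_mul_of_nonneg_left (sum_inv_sqrt_le n) hC1.le
      _ = _ := by ring
  have e3 := hU n hn x F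
  have h1t : 0 ≤ 1 - t := by rw [ht1]; positivity
  have e4 : (1 - t) * (2 * C1 * √(n : ℝ)) ≤ 2 * C1 / √(n : ℝ) := by
    rw [ht1, le_div_iff₀ hsq]
    have h2 : 1 / ((n : ℝ) + 1) * (2 * C1 * √(n : ℝ)) * √(n : ℝ) =
        2 * C1 * (n / (n + 1)) := by
      calc 1 / ((n : ℝ) + 1) * (2 * C1 * √(n : ℝ)) * √(n : ℝ)
          = 2 * C1 * ((√(n : ℝ) * √(n : ℝ)) / (n + 1)) := by ring
        _ = _ := by rw [hss]
    rw [h2]
    have h3 : (n : ℝ) / (n + 1) ≤ 1 := by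
      rw [div_le_one (by positivity)]
      linarith only
    nlinarith only [h3, hC1]
  have e5 := mul_le_mul_of_nonneg_left e2 h1t
  have e6 : 3 * C1 / √(n : ℝ) = 2 * C1 / √(n : ℝ) + C1 / √(n : ℝ) := by ring
  rw [e6]
  linarith only [e1, e3, e4, e5]

/-- `(n / (n + 1)) ^ (B n) ≥ e^(-B)`. -/
theorem pow_window {n : ℕ} (hn : 1 ≤ n) (B : ℕ) :
    Real.exp (-(B : ℝ)) ≤ ((n : ℝ) / (n + 1)) ^ (B * n) := by
  have hn0 : (0 : ℝ) < n := by exact_mod_cast hn
  have h1 : Real.exp (-(1 / (n : ℝ))) ≤ (n : ℝ) / (n + 1) := by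
    rw [Real.exp_neg]
    have h2 : (n : ℝ) / (n + 1) = (1 / (n : ℝ) + 1)⁻¹ := by
      field_simp
      ring
    rw [h2]
    exact inv_anti₀ (by positivity) (Real.add_one_le_exp _)
  calc Real.exp (-(B : ℝ)) = Real.exp (-(1 / (n : ℝ))) ^ (B * n) := by
        rw [← Real.exp_nat_mul]
        congr 1
        push_cast
        field_simp
    _ ≤ _ := pow_le_pow_left₀ (Real.exp_pos _).le h1 _

/-- (L3) the lower bound for finite clusters. -/
theorem tailLowAll_of (hL1 : SecMom G) (hL2 : ChPar G) (hU : TailUp G) (hL : TailLow G)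
    (hpc0 : 0 < pc G) (hpc1 : pc G < 1) : TailLowAll G := by
  obtain ⟨C1, hC1, hU⟩ := hU
  obtain ⟨c1, hc1, hL⟩ := hL
  obtain ⟨D, hD, hL1⟩ := hL1
  obtain ⟨B, hB1, hwin⟩ := window_low (G := G) hpc0.le hpc1.le hc1 hC1 hL hU
  intro a b ha hb
  obtain ⟨C, hC, hch⟩ := hL2 (pc G) a b hpc0 hpc1 ha hb
  set C3 : ℝ := Real.exp B * (6 * D * C1) with hC3
  have hC30 : 0 < C3 := by positivity
  set K : ℝ := 8 * C3 / c1 with hK
  have hK0 : 0 < K := by positivity
  have hsK : 0 < √K := Real.sqrt_pos.2 hK0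
  refine ⟨c1 / 8 * Real.exp (-(C * √K)), C * B + C * √K, B, by positivity, by positivity,
    fun p hpa hpb x n hn => ?_⟩
  obtain ⟨F0, hF0⟩ := hwin x n hn
  refine ⟨F0, fun F hF => ?_⟩
  have hn0 : (0 : ℝ) < n := by exact_mod_cast hn
  have hn1 : (1 : ℝ) ≤ n := by exact_mod_cast hn
  have hsq : 0 < √(n : ℝ) := Real.sqrt_pos.2 hn0
  have hss : √(n : ℝ) * √(n : ℝ) = n := Real.mul_self_sqrt hn0.le
  have eA := hF0 F hF
  set q := pc G with hq
  set Λ := edgesIn G F with hΛ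
  set t : ℝ := (n : ℝ) / (n + 1) with ht
  have ht0 : 0 < t := by positivity
  have ht1 : t < 1 := by
    rw [ht, div_lt_one (by positivity)]
    linarith only
  have h1t : 1 - t = 1 / ((n : ℝ) + 1) := by
    rw [ht]
    field_simp
    ring
  -- the second moment on the window
  have e1 : Ex q Λ (fun S => Mx q Λ x S ^ 2 * t ^ csz S x) ≤ 6 * D * C1 * √(n : ℝ) := by
    have h2 := hL1 q t hpc0.le hpc1.le ht0 ht1 F x
    have h3 := ghost_crit (G := G) hpc0.le hpc1.le hC1 hU hn x F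
    refine h2.trans ?_
    rw [h1t, div_div_eq_mul_div, div_one]
    have h4 : Ex q (edgesIn G F) (fun S => 1 - t ^ csz S x) * ((n : ℝ) + 1) ≤
        3 * C1 / √(n : ℝ) * ((n : ℝ) + 1) :=
      mul_le_mul_of_nonneg_right h3 (by positivity)
    have h5 : 3 * C1 / √(n : ℝ) * ((n : ℝ) + 1) ≤ 6 * C1 * √(n : ℝ) := by
      rw [div_mul_eq_mul_div, div_le_iff₀ hsq]
      have : 6 * C1 * √(n : ℝ) * √(n : ℝ) = 6 * C1 * n := by
        rw [mul_assoc, hss]
      rw [this]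
      nlinarith only [hn1, hC1]
    calc D * (Ex q (edgesIn G F) (fun S => 1 - t ^ csz S x) * ((n : ℝ) + 1))
        ≤ D * (6 * C1 * √(n : ℝ)) := mul_le_mul_of_nonneg_left (h4.trans h5) hD.le
      _ = _ := by ring
  have e2 : Ex q Λ (fun S => ind (n ≤ csz S x ∧ csz S x ≤ B * n) * Mx q Λ x S ^ 2) ≤
      C3 * √(n : ℝ) := by
    calc Ex q Λ (fun S => ind (n ≤ csz S x ∧ csz S x ≤ B * n) * Mx q Λ x S ^ 2)
        ≤ Ex q Λ (fun S => Real.exp B * (Mx q Λ x S ^ 2 * t ^ csz S x)) := by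
          refine Vale.Agent.P151.Ex_mono hpc0.le hpc1.le fun S _ => ?_
          by_cases h : n ≤ csz S x ∧ csz S x ≤ B * n
          · rw [ind_true h, one_mul]
            have h2 : Real.exp (-(B : ℝ)) ≤ t ^ csz S x :=
              (pow_window hn B).trans (pow_le_pow_of_le_one ht0.le ht1.le h.2)
            have h3 : 1 ≤ Real.exp B * t ^ csz S x := by
              calc (1 : ℝ) = Real.exp B * Real.exp (-(B : ℝ)) := by
                    rw [← Real.exp_add, add_neg_cancel, Real.exp_zero]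
                _ ≤ _ := mul_le_mul_of_nonneg_left h2 (Real.exp_pos _).le
            calc Mx q Λ x S ^ 2 = Mx q Λ x S ^ 2 * 1 := (mul_one _).symm
              _ ≤ Mx q Λ x S ^ 2 * (Real.exp B * t ^ csz S x) :=
                  mul_le_mul_of_nonneg_left h3 (sq_nonneg _)
              _ = _ := by ring
          · rw [ind_false h, zero_mul]
            have := pow_nonneg ht0.le (csz S x)
            positivity
      _ = Real.exp B * Ex q Λ (fun S => Mx q Λ x S ^ 2 * t ^ csz S x) :=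
          Vale.Agent.P151.Ex_const_mul _ _ _ _
      _ ≤ Real.exp B * (6 * D * C1 * √(n : ℝ)) :=
          mul_le_mul_of_nonneg_left e1 (Real.exp_pos _).le
      _ = _ := by rw [hC3]; ring
  -- change of parameter
  have e3 := hch p hpa hpb F x (fun k => ind (n ≤ k ∧ k ≤ B * n)) (fun k => ind_nonneg _)
  refine le_trans ?_ e3
  set e := |p - q| with he
  have he0 : 0 ≤ e := abs_nonneg _
  have he2 : (p - q) ^ 2 = e ^ 2 := (sq_abs _).symm
  set L := √K * √(n : ℝ) with hLdef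
  have hL0 : 0 < L := by positivity
  have hL2 : L ^ 2 = K * n := by
    rw [hLdef, mul_pow, Real.sq_sqrt hK0.le, Real.sq_sqrt hn0.le]
  set W := Real.exp (-(C * e * L)) * Real.exp (-(C * e ^ 2 * (B * n))) with hW
  have hW0 : 0 < W := by positivity
  have e4 : W * (Ex q Λ (fun S => ind (n ≤ csz S x ∧ csz S x ≤ B * n)) -
      1 / L ^ 2 * Ex q Λ (fun S => ind (n ≤ csz S x ∧ csz S x ≤ B * n) * Mx q Λ x S ^ 2)) ≤
      Ex q Λ (fun S => ind (n ≤ csz S x ∧ csz S x ≤ B * n) *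
        Real.exp (-(C * e * |Mx q Λ x S|) - C * (p - q) ^ 2 * csz S x)) := by
    rw [← Vale.Agent.P151.Ex_const_mul, ← Vale.Agent.P151.Ex_sub, ← Vale.Agent.P151.Ex_const_mul]
    refine Vale.Agent.P151.Ex_mono hpc0.le hpc1.le fun S _ => ?_
    by_cases h : n ≤ csz S x ∧ csz S x ≤ B * n
    · rw [ind_true h, one_mul, one_mul, he2]
      set M := Mx q Λ x S with hM
      have h2 : (csz S x : ℝ) ≤ B * n := by exact_mod_cast h.2
      have h3 : Real.exp (-(C * e ^ 2 * (B * n))) ≤ Real.exp (-(C * e ^ 2 * csz S x)) := by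
        refine Real.exp_le_exp.2 (neg_le_neg ?_)
        exact mul_le_mul_of_nonneg_left h2 (by positivity)
      have h4 : Real.exp (-(C * e * |M|) - C * e ^ 2 * csz S x) =
          Real.exp (-(C * e * |M|)) * Real.exp (-(C * e ^ 2 * csz S x)) := by
        rw [← Real.exp_add]
        congr 1
      rw [h4]
      rcases le_or_gt |M| L with h5 | h5
      · have h6 : Real.exp (-(C * e * L)) ≤ Real.exp (-(C * e * |M|)) := by
          refine Real.exp_le_exp.2 (neg_le_neg ?_)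
          exact mul_le_mul_of_nonneg_left h5 (by positivity)
        have h7 : 1 - 1 / L ^ 2 * M ^ 2 ≤ 1 := by
          have : 0 ≤ 1 / L ^ 2 * M ^ 2 := by positivity
          linarith only [this]
        calc W * (1 - 1 / L ^ 2 * M ^ 2) ≤ W * 1 := mul_le_mul_of_nonneg_left h7 hW0.le
          _ = W := mul_one _
          _ ≤ _ := mul_le_mul h6 h3 (Real.exp_pos _).le (Real.exp_pos _).le
      · have h6 : 1 - 1 / L ^ 2 * M ^ 2 ≤ 0 := by
          have h7 : L ^ 2 ≤ M ^ 2 := by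
            rw [← sq_abs M]
            exact pow_le_pow_left₀ hL0.le h5.le 2
          have h8 : 1 ≤ 1 / L ^ 2 * M ^ 2 := by
            rw [one_div_mul_eq_div, le_div_iff₀ (by positivity), one_mul]
            exact h7
          linarith only [h8]
        have h9 : W * (1 - 1 / L ^ 2 * M ^ 2) ≤ 0 := mul_nonpos_of_nonneg_of_nonpos hW0.le h6
        exact h9.trans (by positivity)
    · rw [ind_false h, zero_mul, zero_mul, mul_zero, _root_.sub_zero, mul_zero]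
  refine le_trans ?_ e4
  -- the constants
  have e5 : 1 / L ^ 2 * Ex q Λ (fun S => ind (n ≤ csz S x ∧ csz S x ≤ B * n) * Mx q Λ x S ^ 2) ≤
      c1 / 8 / √(n : ℝ) := by
    calc 1 / L ^ 2 * Ex q Λ (fun S => ind (n ≤ csz S x ∧ csz S x ≤ B * n) * Mx q Λ x S ^ 2)
        ≤ 1 / L ^ 2 * (C3 * √(n : ℝ)) := mul_le_mul_of_nonneg_left e2 (by positivity)
      _ = c1 / 8 / √(n : ℝ) := by
          rw [hL2, hK]
          rw [div_mul_eq_mul_div, one_mul, div_eq_div_iff (by positivity) hsq.ne']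
          have : 8 * C3 / c1 * (n : ℝ) = 8 * C3 / c1 * (√(n : ℝ) * √(n : ℝ)) := by rw [hss]
          rw [this]
          field_simp
  have e6 : c1 / 8 / √(n : ℝ) ≤ Ex q Λ (fun S => ind (n ≤ csz S x ∧ csz S x ≤ B * n)) -
      1 / L ^ 2 * Ex q Λ (fun S => ind (n ≤ csz S x ∧ csz S x ≤ B * n) * Mx q Λ x S ^ 2) := by
    have : c1 / 4 / √(n : ℝ) = c1 / 8 / √(n : ℝ) + c1 / 8 / √(n : ℝ) := by ring
    linarith only [eA, e5, this]
  have e7 : Real.exp (-(C * √K)) * Real.exp (-((C * B + C * √K) * (p - q) ^ 2 * n)) ≤ W := by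
    rw [hW, ← Real.exp_add, ← Real.exp_add, he2]
    refine Real.exp_le_exp.2 ?_
    have h2 : e * √(n : ℝ) ≤ 1 + e ^ 2 * n := by
      have h3 : (e * √(n : ℝ)) ^ 2 = e ^ 2 * n := by rw [mul_pow, Real.sq_sqrt hn0.le]
      nlinarith only [h3, sq_nonneg (e * √(n : ℝ) - 1), sq_nonneg (e * √(n : ℝ))]
    have h4 : C * e * L ≤ C * √K * (1 + e ^ 2 * n) := by
      calc C * e * L = C * √K * (e * √(n : ℝ)) := by rw [hLdef]; ring
        _ ≤ _ := mul_le_mul_of_nonneg_left h2 (by positivity)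
    nlinarith only [h4]
  calc c1 / 8 * Real.exp (-(C * √K)) / √(n : ℝ) *
        Real.exp (-((C * B + C * √K) * (p - q) ^ 2 * n))
      = (Real.exp (-(C * √K)) * Real.exp (-((C * B + C * √K) * (p - q) ^ 2 * n))) *
          (c1 / 8 / √(n : ℝ)) := by ring
    _ ≤ W * (c1 / 8 / √(n : ℝ)) := mul_le_mul_of_nonneg_right e7 (by positivity)
    _ ≤ _ := mul_le_mul_of_nonneg_left e6 hW0.le

end Vale.Agent.P165.H177
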