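import Vale.Agent.P165.H199.Esc
import Vale.Agent.P165.H199.BAMain

/-!
Many escapes: block EscLow.
-/

open Finset

set_option linter.unusedSectionVars false

namespace Vale.Agent.P165.H177

open Vale.Agent.P151 (Ex Cn cl csz edgesIn EV con tau)
open Vale.Agent.P165 Vale.Agent.P165.LF Vale.Agent.P165.H199

variable {V : Type} [DecidableEq V]

/-- The ghost probability of `v` off `Q`. -/
noncomputable def gOff (G : SimpleGraph V) (p t : ℝ) (F Q : Finset V) (v : V) : ℝ :=
  Ex p (edgesIn G F) (fun S => 1 - t ^ csz (S ∩ offE (edgesIn G F) (Q : Set V)) v)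

lemma gOff_nonneg (G : SimpleGraph V) {p t : ℝ} (h0 : 0 ≤ p) (h1 : p ≤ 1) (t0 : 0 ≤ t)
    (t1 : t ≤ 1) (F Q : Finset V) (v : V) : 0 ≤ gOff G p t F Q v :=
  Vale.Agent.P151.Ex_nonneg h0 h1 (fun _ _ => csz_of_nat_pow_nonneg t0 t1 _)

lemma gOff_step (G : SimpleGraph V) {p t : ℝ} (h0 : 0 ≤ p) (h1 : p ≤ 1) (t0 : 0 ≤ t)
    (t1 : t ≤ 1) {F Q : Finset V} {z y : V} (hzy : G.Adj z y) (hz : z ∈ F) (hy : y ∈ F)
    (hzQ : z ∉ Q) (hyQ : y ∉ Q) : p * gOff G p t F Q z ≤ gOff G p t F Q y := by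
  set Λ := edgesIn G F with hΛ
  set A := offE Λ (Q : Set V) with hA
  have hAΛ : A ⊆ Λ := fun e he => (mem_offE.1 he).1
  have hr : ∀ v, gOff G p t F Q v = Ex p A (fun S => 1 - t ^ csz S v) := by
    intro v
    unfold gOff
    rw [← hΛ, ← hA, Vale.Agent.P151.Ex_restrict p hAΛ
      (F := fun S => 1 - t ^ csz (S ∩ A) v) (fun S _ => by
        show 1 - t ^ csz (S ∩ A) v = 1 - t ^ csz (S ∩ A ∩ A) v
        rw [inter_assoc, inter_self])]
    refine Vale.Agent.P151.Ex_congr p (fun S hS => ?_)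
    rw [inter_eq_left.2 hS]
  rw [hr, hr]
  have he : s(z, y) ∈ A := by
    rw [hA, mem_offE]
    refine ⟨Vale.Agent.P151.mk_mem_edgesIn.2 ⟨hzy, hz, hy⟩, fun v hv => ?_⟩
    rw [Sym2.mem_iff] at hv
    rcases hv with rfl | rfl
    · exact fun h => hzQ (mem_coe.1 h)
    · exact fun h => hyQ (mem_coe.1 h)
  have h2 : p ≤ Ex p A (con z y) := by
    refine le_trans ?_ (Vale.Agent.P151.Ex_mono_set h0 h1 (singleton_subset_iff.2 he)
      (Vale.Agent.P151.con_mono z y))
    have h2 : ({s(z, y)} : Finset (Sym2 V)) = insert s(z, y) ∅ := rfl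
    rw [h2, Vale.Agent.P151.Ex_insert p (Finset.notMem_empty _), Vale.Agent.P151.Ex_empty,
      Vale.Agent.P151.Ex_empty]
    have h3 : con z y (insert s(z, y) ∅) = 1 := by
      rw [con_eq_ind]
      exact ind_true (Vale.Agent.P151.Cn_of_mem (mem_insert_self _ _))
    rw [h3]
    have h4 : 0 ≤ (1 - p) * con z y ∅ :=
      mul_nonneg (sub_nonneg.2 h1) (Vale.Agent.P151.con_nonneg _ _ _)
    linarith only [h4]
  have hmono : Monotone (fun S : Finset (Sym2 V) => 1 - t ^ csz S z) := by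
    intro S T hST
    have := pow_le_pow_of_le_one t0 t1 (Vale.Agent.P151.csz_mono hST z)
    show 1 - t ^ csz S z ≤ 1 - t ^ csz T z
    linarith only [this]
  have h3 : 0 ≤ Ex p A (fun S => 1 - t ^ csz S z) :=
    Vale.Agent.P151.Ex_nonneg h0 h1 (fun _ _ => csz_of_nat_pow_nonneg t0 t1 _)
  refine (mul_le_mul_of_nonneg_right h2 h3).trans ?_
  refine (Vale.Agent.P151.harris h0 h1 A (Vale.Agent.P151.con_mono z y) hmono).trans ?_
  refine Vale.Agent.P151.Ex_mono h0 h1 (fun S _ => ?_)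
  rw [con_eq_ind]
  by_cases hc : Cn S z y
  · rw [ind_true hc, one_mul]
    have e : csz S z = csz S y := by
      unfold csz
      congr 1
      ext v
      rw [Vale.Agent.P151.mem_cl, Vale.Agent.P151.mem_cl]
      exact ⟨fun h => hc.symm.trans h, fun h => hc.trans h⟩
    rw [e]
  · rw [ind_false hc, zero_mul]
    exact csz_of_nat_pow_nonneg t0 t1 _

/-- Walking from `w` towards `Q`: the last vertex before `Q` is an outer boundary vertex. -/
lemma gOff_walk (G : SimpleGraph V) [G.LocallyFinite] {p t : ℝ} (h0 : 0 ≤ p) (h1 : p ≤ 1)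
    (t0 : 0 ≤ t) (t1 : t ≤ 1) {F Q : Finset V} {w : V} (hw : w ∉ Q) :
    ∀ (r : ℕ) (y : V), y ∈ ballF G w r → ballF G w r ⊆ F →
      (∃ v ∈ outer G F Q, v ∈ ballF G w r ∧ p ^ r * gOff G p t F Q w ≤ gOff G p t F Q v) ∨
        (y ∉ Q ∧ p ^ r * gOff G p t F Q w ≤ gOff G p t F Q y) := by
  classical
  intro r
  have hg := gOff_nonneg G h0 h1 t0 t1 F Q w
  induction r with
  | zero =>
    intro y hy _
    rw [ballF_zero, mem_singleton] at hy
    rw [hy, pow_zero, one_mul]
    exact Or.inr ⟨hw, le_rfl⟩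
  | succ r ih =>
    intro y hy hF
    have hsub : ballF G w r ⊆ F := (ballF_mono G w (Nat.le_succ r)).trans hF
    have hyF := hF hy
    have hle : p ^ (r + 1) * gOff G p t F Q w ≤ p ^ r * gOff G p t F Q w :=
      mul_le_mul_of_nonneg_right (pow_le_pow_of_le_one h0 h1 (Nat.le_succ r)) hg
    have hesc : (∃ v ∈ outer G F Q, v ∈ ballF G w r ∧
        p ^ r * gOff G p t F Q w ≤ gOff G p t F Q v) →
        ∃ v ∈ outer G F Q, v ∈ ballF G w (r + 1) ∧
        p ^ (r + 1) * gOff G p t F Q w ≤ gOff G p t F Q v := by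
      rintro ⟨v, h1, h2, h3⟩
      exact ⟨v, h1, ballF_mono G w (Nat.le_succ r) h2, hle.trans h3⟩
    rw [mem_ballF_succ] at hy
    rcases hy with hy | ⟨z, hz, hzy⟩
    · rcases ih y hy hsub with h | ⟨h, h'⟩
      · exact Or.inl (hesc h)
      · exact Or.inr ⟨h, hle.trans h'⟩
    · rcases ih z hz hsub with h | ⟨h, h'⟩
      · exact Or.inl (hesc h)
      · by_cases hyQ : y ∈ Q
        · left
          refine hesc ⟨z, ?_, hz, h'⟩
          unfold outer
          rw [mem_filter]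
          exact ⟨hsub hz, h, y, hyQ, hzy.symm, hyF⟩
        · right
          refine ⟨hyQ, ?_⟩
          refine le_trans ?_ (gOff_step G h0 h1 t0 t1 hzy (hsub hz) hyF h hyQ)
          rw [pow_succ, mul_comm (p ^ r) p, mul_assoc]
          exact mul_le_mul_of_nonneg_left h' h0

/-- Block EscLow from the pieces. -/
theorem escLow_of (G : SimpleGraph V) [G.LocallyFinite] [Infinite V] (hG : G.Connected)
    (hqt : IsQuasiTransitive G) (hna : 0 < vertexCheeger G) (hG2 : G2 G) (hG4 : G4 G) :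
    EscLow G := by
  classical
  have hne : Nonempty V := hG.nonempty
  obtain ⟨⟨hpc0, hlt, _⟩, _, _⟩ := H794.main hG hqt hna
  obtain ⟨p', N', hp, hp0, hp1, hL'⟩ := H794.exists_L2B_of_lt hG hlt
  set p₁ := (pc G + p') / 2 with hp₁
  have hpp₁ : pc G < p₁ := by rw [hp₁]; linarith only [hp]
  have hp₁p : p₁ ≤ p' := by rw [hp₁]; linarith only [hp]
  have hp₁1 : p₁ < 1 := by rw [hp₁]; linarith only [hp, hp1]
  set q₀ := pc G / 2 with hq₀
  have hq₀0 : 0 < q₀ := by rw [hq₀]; linarith only [hpc0]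
  obtain ⟨c₁, hc₁, hc₁1, hmag⟩ := hG4 q₀ hq₀0
  set κ := c₁ / 2 with hκ
  have hκ0 : 0 < κ := by positivity
  have hκ1 : κ < 1 := by rw [hκ]; linarith only [hc₁1]
  obtain ⟨R, hR⟩ : ∃ R : ℕ, N' ^ 2 / κ ^ 2 + 1 ≤ (1 + vertexCheeger G) ^ R := by
    have h2 : 1 < 1 + vertexCheeger G := by linarith only [hna]
    obtain ⟨R, hR⟩ := pow_unbounded_of_one_lt (N' ^ 2 / κ ^ 2 + 1) h2
    exact ⟨R, hR.le⟩
  obtain ⟨Δ, hΔ1, hΔ⟩ := LF.exists_degree_bound (G := G) hqt
  set D := (Δ + 1) ^ R with hD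
  have hD0 : (0 : ℝ) < D := by
    have : 0 < D := by positivity
    exact_mod_cast this
  refine ⟨p₁, q₀ ^ R * κ / D, hpp₁, hp₁1, by positivity, ?_⟩
  intro p t hq hqp₁ t0 t1 x L
  have h0 : 0 ≤ p := hq₀0.le.trans hq
  have h1 : p ≤ 1 := hqp₁.trans hp₁1.le
  have hL2 : L2B G p N' := hL'.mg_mono h0 (hqp₁.trans hp₁p) hp1
  obtain ⟨F1, hF1⟩ := hmag p t hq h1 t0 t1 (ballF G x (L + R))
  refine ⟨F1 ∪ ballF G x (L + R + R), fun F hF Q hQ => ?_⟩
  have hFb : ballF G x (L + R + R) ⊆ F := subset_union_right.trans hF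
  have hFm := hF1 F (subset_union_left.trans hF)
  set M := mM G p t with hM
  have hMF : ∀ a, mF G p t F a ≤ M := mF_le_mM G h0 h1 t0.le F
  have hM0 : 0 ≤ M := by
    have h1 := mF_ge G h0 h1 t0.le t1.le F x
    have h2 := hMF x
    linarith only [h1, h2, t1]
  set W := ballF G x (L + R) with hW
  have hballs : ∀ w ∈ W, ballF G w R ⊆ F := by
    intro w hw y hy
    refine hFb ?_
    have := mem_ballF_trans G hy hw
    rwa [add_comm R (L + R)] at this
  have hWF : W ⊆ F := fun w hw => hballs w hw (mem_ballF_self G w R)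
  have hQF : Q ⊆ F := hQ.trans ((ballF_mono G x (by omega)).trans hFb)
  -- the good vertices
  set Wg := W.filter (fun w => (∃ y ∈ Q, y ∈ ballF G w R) ∧ fQ G p F Q w ≤ κ) with hWg
  have hcard : (Q.card : ℝ) ≤ Wg.card := by
    have h2 := stepC G hG2 hL2 h0 h1 hκ0 hQF hWF R hR (by
      intro z hz
      rw [mem_biUnion] at hz
      obtain ⟨y, hy, hz⟩ := hz
      have := mem_ballF_trans G hz (hQ hy)
      rwa [add_comm R L] at this)
    refine h2.trans (le_of_eq ?_)
    rw [hWg, Finset.card_filter, Nat.cast_sum]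
    refine Finset.sum_congr rfl (fun w _ => ?_)
    by_cases h : (∃ y ∈ Q, y ∈ ballF G w R) ∧ fQ G p F Q w ≤ κ
    · rw [ind_true h, if_pos h, Nat.cast_one]
    · rw [ind_false h, if_neg h, Nat.cast_zero]
  have hesc : ∀ w ∈ Wg, ∃ v ∈ outer G F Q, v ∈ ballF G w R ∧
      q₀ ^ R * (κ * M) ≤ gOff G p t F Q v := by
    intro w hw
    rw [hWg, mem_filter] at hw
    obtain ⟨hwW, ⟨y, hyQ, hy⟩, hf⟩ := hw
    have hwQ : w ∉ Q := by
      intro h
      have h2 : 1 ≤ fQ G p F Q w := by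
        unfold fQ
        rw [← Ex_con_self p (edgesIn G F) w]
        exact Finset.single_le_sum (f := fun a => Ex p (edgesIn G F) (con w a))
          (fun a _ => Ex_con_nonneg h0 h1 _ _ _) h
      linarith only [h2, hf, hκ1]
    have hg : κ * M ≤ gOff G p t F Q w := by
      refine le_trans ?_ (off_ge' G h0 h1 t0.le t1.le F Q w hMF)
      have h2 := hFm w hwW
      have h3 := mul_le_mul_of_nonneg_left hf hM0
      have h4 : c₁ * M = κ * M + M * κ := by rw [hκ]; ring
      linarith only [h2, h3, h4]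
    have hg2 : q₀ ^ R * (κ * M) ≤ p ^ R * gOff G p t F Q w :=
      mul_le_mul (pow_le_pow_left₀ hq₀0.le hq R) hg (mul_nonneg hκ0.le hM0) (pow_nonneg h0 _)
    rcases gOff_walk G h0 h1 t0.le t1.le hwQ R y hy (hballs w hwW) with
      ⟨v, h2, h3, h4⟩ | ⟨h2, _⟩
    · exact ⟨v, h2, h3, hg2.trans h4⟩
    · exact absurd hyQ h2
  choose! φ hφ1 hφ2 hφ3 using hesc
  have hsum : (Wg.card : ℝ) * (q₀ ^ R * (κ * M)) ≤ D * esc G p t F Q := by
    calc (Wg.card : ℝ) * (q₀ ^ R * (κ * M)) = ∑ w ∈ Wg, q₀ ^ R * (κ * M) := by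
          rw [Finset.sum_const, nsmul_eq_mul]
      _ ≤ ∑ w ∈ Wg, gOff G p t F Q (φ w) := Finset.sum_le_sum hφ3
      _ = ∑ v ∈ outer G F Q, ∑ w ∈ Wg.filter (fun w => φ w = v), gOff G p t F Q (φ w) :=
          (Finset.sum_fiberwise_of_maps_to hφ1 _).symm
      _ ≤ ∑ v ∈ outer G F Q, D * gOff G p t F Q v := by
          refine Finset.sum_le_sum (fun v _ => ?_)
          have e : ∑ w ∈ Wg.filter (fun w => φ w = v), gOff G p t F Q (φ w) =
              ((Wg.filter (fun w => φ w = v)).card : ℝ) * gOff G p t F Q v := by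
            rw [← nsmul_eq_mul, ← Finset.sum_const]
            exact Finset.sum_congr rfl (fun w hw => by rw [(mem_filter.1 hw).2])
          rw [e]
          refine mul_le_mul_of_nonneg_right ?_ (gOff_nonneg G h0 h1 t0.le t1.le F Q v)
          have h2 : Wg.filter (fun w => φ w = v) ⊆ ballF G v R := by
            intro w hw
            rw [mem_filter] at hw
            have := hφ2 w hw.1
            rw [hw.2] at this
            exact (mem_ballF_comm G _ _ _).1 this
          have h3 := (card_le_card h2).trans (card_ballF_le G Δ hΔ v R)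
          exact_mod_cast h3
      _ = D * esc G p t F Q := by
          unfold esc
          rw [Finset.mul_sum]
          rfl
  have h5 : q₀ ^ R * (κ * M) * Q.card ≤ D * esc G p t F Q := by
    refine le_trans ?_ hsum
    rw [mul_comm]
    exact mul_le_mul_of_nonneg_right hcard
      (mul_nonneg (pow_nonneg hq₀0.le _) (mul_nonneg hκ0.le hM0))
  calc q₀ ^ R * κ / D * M * Q.card = q₀ ^ R * (κ * M) * Q.card / D := by ring
    _ ≤ esc G p t F Q := by
      rw [div_le_iff₀ hD0, mul_comm (esc G p t F Q)]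
      exact h5

/-- Block EscLow. -/
theorem escLow [Infinite V] {G : SimpleGraph V} [G.LocallyFinite] (hG : G.Connected)
    (hqt : IsQuasiTransitive G) (hna : 0 < vertexCheeger G) : EscLow G :=
  escLow_of G hG hqt hna (H633.g2 G) (H326.g4 hG hqt)

end Vale.Agent.P165.H177
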