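import Vale.Agent.P165.H199.Blocks

/-!
# Sprinkling for the ghost magnetization

For `q ≤ r` and `s = (r - q) / (1 - q)`:
`E_r[1 - t^|K_x|] ≤ E_q[1 - t^|K_x|] + d s (sup_b E_r[1 - t^|K_b|]) E_q[|K_x| t^|K_x|]`.
-/

set_option autoImplicit false
set_option linter.unusedSectionVars false

open Finset

namespace Vale.Agent.P165.H177

open Vale.Agent.P151 (Ex Cn cl csz edgesIn EV con tau)
open Vale.Agent.P165.LF Vale.Agent.P165.BS Vale.Agent.P165.BS2 Vale.Agent.P165.H794
open Vale.Agent.P165.H199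

variable {V : Type} [DecidableEq V] {G : SimpleGraph V}

theorem one_sub_prod_le {ι : Type*} (I : Finset ι) (f : ι → ℝ) (h0 : ∀ i ∈ I, 0 ≤ f i)
    (h1 : ∀ i ∈ I, f i ≤ 1) : 1 - ∏ i ∈ I, f i ≤ ∑ i ∈ I, (1 - f i) := by
  classical
  induction I using Finset.induction_on with
  | empty => simp
  | insert a I ha ih =>
    rw [Finset.prod_insert ha, Finset.sum_insert ha]
    have h2 := ih (fun i hi => h0 i (Finset.mem_insert_of_mem hi))
      (fun i hi => h1 i (Finset.mem_insert_of_mem hi))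
    have ha0 := h0 a (Finset.mem_insert_self a I)
    have ha1 := h1 a (Finset.mem_insert_self a I)
    have hp : ∏ i ∈ I, f i ≤ 1 :=
      Finset.prod_le_one (fun i hi => h0 i (Finset.mem_insert_of_mem hi))
        (fun i hi => h1 i (Finset.mem_insert_of_mem hi))
    nlinarith only [h2, ha0, ha1, hp]

theorem anti_pow_csz {t : ℝ} (ht0 : 0 ≤ t) (ht1 : t ≤ 1) (x : V) :
    Monotone (fun S : Finset (Sym2 V) => 1 - t ^ csz S x) := by
  intro S T h
  have h1 := pow_le_pow_of_le_one ht0 ht1 (Vale.Agent.P151.csz_mono h x)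
  simp only
  linarith only [h1]

/-- The new cluster is covered by the old one and by the clusters, off the old one, reached
through the newly open edges. -/
theorem cl_union_subset [G.LocallyFinite] {F : Finset V} {T R : Finset (Sym2 V)}
    (hT : T ⊆ edgesIn G F) (hR : R ⊆ edgesIn G F) (x : V) :
    cl (T ∪ R) x ⊆ cl T x ∪ (((cl T x).sigma fun a => G.neighborFinset a).filter
      (fun i => s(i.1, i.2) ∈ R)).biUnion (fun i => cl
        ((T ∩ offE (edgesIn G F) (cl T x : Set V)) ∪ (R ∩ offE (edgesIn G F) (cl T x : Set V)))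
        i.2) := by
  classical
  intro y hy
  rw [Vale.Agent.P151.mem_cl] at hy
  set O := offE (edgesIn G F) (cl T x : Set V) with hO
  have key : y ∈ {y : V | y ∈ cl T x ∨ ∃ a b, a ∈ cl T x ∧ s(a, b) ∈ R ∧
      Cn ((T ∩ O) ∪ (R ∩ O)) b y} := by
    refine Vale.Agent.P151.Cn_closed (S := T ∪ R) ?_
      (Or.inl (Vale.Agent.P151.self_mem_cl T x)) hy
    rintro u hu v huv
    by_cases hv : v ∈ cl T x
    · exact Or.inl hv
    rcases hu with hu | ⟨a, b, ha, hab, hbu⟩
    · rw [Finset.mem_union] at huv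
      rcases huv with huv | huv
      · left
        rw [Vale.Agent.P151.mem_cl] at hu ⊢
        exact hu.trans (Vale.Agent.P151.Cn_of_mem huv)
      · exact Or.inr ⟨u, v, hu, huv, Cn.refl _ _⟩
    · by_cases hu2 : u ∈ cl T x
      · rw [Finset.mem_union] at huv
        rcases huv with huv | huv
        · left
          rw [Vale.Agent.P151.mem_cl] at hu2 ⊢
          exact hu2.trans (Vale.Agent.P151.Cn_of_mem huv)
        · exact Or.inr ⟨u, v, hu2, huv, Cn.refl _ _⟩
      · refine Or.inr ⟨a, b, ha, hab, hbu.trans (Vale.Agent.P151.Cn_of_mem ?_)⟩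
        have hO2 : s(u, v) ∈ edgesIn G F → s(u, v) ∈ O := by
          intro h
          rw [hO, mem_offE]
          refine ⟨h, fun w hw => ?_⟩
          rcases Sym2.mem_iff.1 hw with rfl | rfl
          · exact fun h => hu2 (Finset.mem_coe.1 h)
          · exact fun h => hv (Finset.mem_coe.1 h)
        rw [Finset.mem_union] at huv ⊢
        rcases huv with huv | huv
        · exact Or.inl (Finset.mem_inter.2 ⟨huv, hO2 (hT huv)⟩)
        · exact Or.inr (Finset.mem_inter.2 ⟨huv, hO2 (hR huv)⟩)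
  rcases key with h | ⟨a, b, ha, hab, hb⟩
  · exact Finset.mem_union_left _ h
  · refine Finset.mem_union_right _ (Finset.mem_biUnion.2 ⟨⟨a, b⟩, ?_, ?_⟩)
    · rw [Finset.mem_filter, Finset.mem_sigma]
      refine ⟨⟨ha, ?_⟩, hab⟩
      rw [SimpleGraph.mem_neighborFinset]
      exact (Vale.Agent.P151.mk_mem_edgesIn.1 (hR hab)).1
    · rw [Vale.Agent.P151.mem_cl]
      exact hb

/-- The pointwise form of the sprinkling inequality. -/
theorem ghost_pointwise [G.LocallyFinite] {F : Finset V} {T R : Finset (Sym2 V)}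
    (hT : T ⊆ edgesIn G F) (hR : R ⊆ edgesIn G F) (x : V) {t : ℝ} (ht0 : 0 ≤ t) (ht1 : t ≤ 1) :
    1 - t ^ csz (T ∪ R) x ≤ (1 - t ^ csz T x) + t ^ csz T x *
      ∑ a ∈ cl T x, ∑ b ∈ G.neighborFinset a, ind (s(a, b) ∈ R) *
        (1 - t ^ csz ((T ∩ offE (edgesIn G F) (cl T x : Set V)) ∪
          (R ∩ offE (edgesIn G F) (cl T x : Set V))) b) := by
  classical
  set U := (T ∩ offE (edgesIn G F) (cl T x : Set V)) ∪
    (R ∩ offE (edgesIn G F) (cl T x : Set V)) with hU
  set I := ((cl T x).sigma fun a => G.neighborFinset a).filter (fun i => s(i.1, i.2) ∈ R) with hI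
  have h1 : csz (T ∪ R) x ≤ csz T x + ∑ i ∈ I, csz U i.2 := by
    unfold Vale.Agent.P151.csz
    refine (Finset.card_le_card (cl_union_subset hT hR x)).trans ?_
    refine (Finset.card_union_le _ _).trans (Nat.add_le_add_left ?_ _)
    exact Finset.card_biUnion_le
  have h2 : t ^ csz T x * ∏ i ∈ I, t ^ csz U i.2 ≤ t ^ csz (T ∪ R) x := by
    rw [Finset.prod_pow_eq_pow_sum, ← pow_add]
    exact pow_le_pow_of_le_one ht0 ht1 h1
  have h3 : 1 - ∏ i ∈ I, t ^ csz U i.2 ≤ ∑ i ∈ I, (1 - t ^ csz U i.2) :=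
    one_sub_prod_le I _ (fun _ _ => pow_nonneg ht0 _) (fun _ _ => pow_le_one₀ ht0 ht1)
  have h4 : ∑ i ∈ I, (1 - t ^ csz U i.2) = ∑ a ∈ cl T x, ∑ b ∈ G.neighborFinset a,
      ind (s(a, b) ∈ R) * (1 - t ^ csz U b) := by
    rw [hI, Finset.sum_filter, Finset.sum_sigma]
    refine Finset.sum_congr rfl fun a _ => Finset.sum_congr rfl fun b _ => ?_
    by_cases h : s(a, b) ∈ R
    · rw [if_pos h, ind_true h, one_mul]
    · rw [if_neg h, ind_false h, zero_mul]
  rw [← h4]
  have h5 : 0 ≤ t ^ csz T x := pow_nonneg ht0 _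
  have h6 := mul_le_mul_of_nonneg_left h3 h5
  linarith only [h2, h6]

/-- An edge not in `O` is independent of the configuration in `O`. -/
theorem Ex_edge_mul (s : ℝ) {Λ O : Finset (Sym2 V)} {e : Sym2 V} (heO : e ∉ O)
    (h : Finset (Sym2 V) → ℝ) :
    Ex s Λ (fun R => ind (e ∈ R) * h (R ∩ O)) =
      (if e ∈ Λ then s else 0) * Ex s Λ (fun R => h (R ∩ O)) := by
  classical
  by_cases he : e ∈ Λ
  · rw [if_pos he]
    conv_lhs => rw [← Finset.insert_erase he]
    conv_rhs => rw [← Finset.insert_erase he]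
    rw [Vale.Agent.P151.Ex_insert s (Finset.notMem_erase e Λ),
      Vale.Agent.P151.Ex_insert s (Finset.notMem_erase e Λ)]
    have h1 : ∀ R : Finset (Sym2 V), (insert e R) ∩ O = R ∩ O := fun R =>
      Finset.insert_inter_of_notMem heO
    have h2 : Ex s (Λ.erase e) (fun R => ind (e ∈ R) * h (R ∩ O)) = 0 := by
      rw [← Vale.Agent.P151.Ex_const s (Λ.erase e) 0]
      refine Vale.Agent.P151.Ex_congr s fun R hR => ?_
      rw [ind_false (fun h => Finset.notMem_erase e Λ (hR h)), zero_mul]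
    have h3 : Ex s (Λ.erase e) (fun R => ind (e ∈ insert e R) * h (insert e R ∩ O)) =
        Ex s (Λ.erase e) (fun R => h (R ∩ O)) := by
      refine Vale.Agent.P151.Ex_congr s fun R _ => ?_
      rw [ind_true (Finset.mem_insert_self e R), one_mul, h1]
    have h4 : Ex s (Λ.erase e) (fun R => h (insert e R ∩ O)) =
        Ex s (Λ.erase e) (fun R => h (R ∩ O)) :=
      Vale.Agent.P151.Ex_congr s fun R _ => by rw [h1]
    rw [h2, h3, h4]
    ring
  · rw [if_neg he, zero_mul, ← Vale.Agent.P151.Ex_const s Λ 0]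
    refine Vale.Agent.P151.Ex_congr s fun R hR => ?_
    rw [ind_false (fun h => he (hR h)), zero_mul]

/-- The sprinkling inequality in finite volume. -/
theorem mF_step [G.LocallyFinite] {d : ℕ} (hd : ∀ x, G.degree x ≤ d) {q r : ℝ} (h0 : 0 ≤ q)
    (hqr : q ≤ r) (hq1 : q < 1) (h1 : r ≤ 1) {t : ℝ} (ht0 : 0 ≤ t) (ht1 : t ≤ 1) {m : ℝ}
    (F : Finset V) (hm : ∀ b, mF G r t F b ≤ m) (x : V) :
    mF G r t F x ≤ mF G q t F x + d * ((r - q) / (1 - q)) * m *
      Ex q (edgesIn G F) (fun S => (csz S x : ℝ) * t ^ csz S x) := by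
  classical
  set Λ := edgesIn G F with hΛ
  have hq : 0 < 1 - q := by linarith only [hq1]
  set s := (r - q) / (1 - q) with hs
  have hs0 : 0 ≤ s := div_nonneg (by linarith only [hqr]) hq.le
  have hs1 : s ≤ 1 := by rw [hs, div_le_one hq]; linarith only [h1]
  have hsup : 1 - r = (1 - q) * (1 - s) := by
    rw [hs, mul_sub, mul_div_cancel₀ _ hq.ne']; ring
  have h0r : 0 ≤ r := h0.trans hqr
  have hm0 : 0 ≤ m := by
    refine le_trans ?_ (hm x)
    exact Vale.Agent.P151.Ex_nonneg h0r h1 fun S _ => by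
      have := pow_le_one₀ (n := csz S x) ht0 ht1
      linarith only [this]
  have hpos : ∀ (S : Finset (Sym2 V)) (b : V), 0 ≤ 1 - t ^ csz S b := fun S b => by
    have := pow_le_one₀ (n := csz S b) ht0 ht1
    linarith only [this]
  -- the edge term for a fixed set
  have hedge : ∀ (Q : Set V) (a b : V), a ∈ Q →
      Ex q Λ (fun T => Ex s Λ (fun R => ind (s(a, b) ∈ R) *
        (1 - t ^ csz ((T ∩ offE Λ Q) ∪ (R ∩ offE Λ Q)) b))) ≤ s * m := by
    intro Q a b ha
    have heO : s(a, b) ∉ offE Λ Q := fun h =>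
      (mem_offE.1 h).2 a (Sym2.mem_mk_left a b) ha
    have e1 : ∀ T, Ex s Λ (fun R => ind (s(a, b) ∈ R) *
        (1 - t ^ csz ((T ∩ offE Λ Q) ∪ (R ∩ offE Λ Q)) b)) ≤
        s * Ex s Λ (fun R => 1 - t ^ csz (T ∪ R) b) := by
      intro T
      have e2 := Ex_edge_mul s (Λ := Λ) heO
        (fun W => 1 - t ^ csz ((T ∩ offE Λ Q) ∪ W) b)
      rw [e2]
      have e3 : 0 ≤ Ex s Λ (fun R => 1 - t ^ csz ((T ∩ offE Λ Q) ∪ (R ∩ offE Λ Q)) b) :=
        Vale.Agent.P151.Ex_nonneg hs0 hs1 fun R _ => hpos _ _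
      calc (if s(a, b) ∈ Λ then s else 0) *
            Ex s Λ (fun R => 1 - t ^ csz ((T ∩ offE Λ Q) ∪ (R ∩ offE Λ Q)) b)
          ≤ s * Ex s Λ (fun R => 1 - t ^ csz ((T ∩ offE Λ Q) ∪ (R ∩ offE Λ Q)) b) := by
            refine mul_le_mul_of_nonneg_right ?_ e3
            split_ifs
            · exact le_rfl
            · exact hs0
        _ ≤ _ := by
            refine mul_le_mul_of_nonneg_left ?_ hs0
            refine Vale.Agent.P151.Ex_mono hs0 hs1 fun R _ => ?_
            exact anti_pow_csz ht0 ht1 b (Finset.union_subset_union Finset.inter_subset_left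
              Finset.inter_subset_left)
    calc Ex q Λ (fun T => Ex s Λ (fun R => ind (s(a, b) ∈ R) *
          (1 - t ^ csz ((T ∩ offE Λ Q) ∪ (R ∩ offE Λ Q)) b)))
        ≤ Ex q Λ (fun T => s * Ex s Λ (fun R => 1 - t ^ csz (T ∪ R) b)) :=
          Vale.Agent.P151.Ex_mono h0 hq1.le fun T _ => e1 T
      _ = s * mF G r t F b := by
          rw [Vale.Agent.P151.Ex_const_mul]
          unfold mF
          rw [Vale.Agent.P151.Ex_superpose hsup]
      _ ≤ s * m := mul_le_mul_of_nonneg_left (hm b) hs0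
  -- the two levels
  have e0 : mF G r t F x = Ex q Λ (fun T => Ex s Λ (fun R => 1 - t ^ csz (T ∪ R) x)) := by
    unfold mF
    rw [Vale.Agent.P151.Ex_superpose hsup]
  set Φ : Set V → Finset (Sym2 V) → ℝ := fun Q U => t ^ Q.ncard *
    ∑ a ∈ F ∪ {x}, ∑ b ∈ G.neighborFinset a, ind (a ∈ Q) * Ex s Λ (fun R => ind (s(a, b) ∈ R) *
      (1 - t ^ csz (U ∪ (R ∩ offE Λ Q)) b)) with hΦ
  have hcl : ∀ T ⊆ Λ, cl T x ⊆ F ∪ {x} := by
    intro T hT y hy
    rw [Vale.Agent.P151.mem_cl] at hy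
    refine Finset.mem_coe.1 (Vale.Agent.P151.Cn_closed (S := T) (A := ((F ∪ {x} : Finset V) : Set V))
      ?_ (by simp) hy)
    intro u _ v huv
    exact Finset.mem_coe.2 (Finset.mem_union_left _
      (Vale.Agent.P151.mk_mem_edgesIn.1 (hT huv)).2.2)
  have hsumcl : ∀ T ⊆ Λ, ∀ f : V → ℝ,
      ∑ a ∈ F ∪ {x}, ind (a ∈ (cl T x : Set V)) * f a = ∑ a ∈ cl T x, f a := by
    intro T hT f
    rw [← Finset.sum_subset (hcl T hT) (fun a _ ha => by
      rw [ind_false (fun h => ha (Finset.mem_coe.1 h)), zero_mul])]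
    refine Finset.sum_congr rfl fun a ha => ?_
    rw [ind_true (Finset.mem_coe.2 ha), one_mul]
  have e1 : Ex q Λ (fun T => Ex s Λ (fun R => 1 - t ^ csz (T ∪ R) x)) ≤
      Ex q Λ (fun T => 1 - t ^ csz T x) +
      Ex q Λ (fun T => Φ (clS T {x}) (T ∩ offE Λ (clS T {x}))) := by
    rw [← Vale.Agent.P151.Ex_add]
    refine Vale.Agent.P151.Ex_mono h0 hq1.le fun T hT => ?_
    rw [gn_clS, hΦ]
    simp only
    have e2 : t ^ (cl T x : Set V).ncard = t ^ csz T x := by
      rw [Set.ncard_coe_finset]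
      rfl
    have e3 : ∑ a ∈ F ∪ {x}, ∑ b ∈ G.neighborFinset a, ind (a ∈ (cl T x : Set V)) *
        Ex s Λ (fun R => ind (s(a, b) ∈ R) *
          (1 - t ^ csz ((T ∩ offE Λ (cl T x : Set V)) ∪ (R ∩ offE Λ (cl T x : Set V))) b)) =
        ∑ a ∈ cl T x, ∑ b ∈ G.neighborFinset a, Ex s Λ (fun R => ind (s(a, b) ∈ R) *
          (1 - t ^ csz ((T ∩ offE Λ (cl T x : Set V)) ∪ (R ∩ offE Λ (cl T x : Set V))) b)) := by
      rw [← hsumcl T hT]
      exact Finset.sum_congr rfl fun a _ => (Finset.mul_sum _ _ _).symm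
    rw [e2, e3]
    calc Ex s Λ (fun R => 1 - t ^ csz (T ∪ R) x)
        ≤ Ex s Λ (fun R => (1 - t ^ csz T x) + t ^ csz T x *
          ∑ a ∈ cl T x, ∑ b ∈ G.neighborFinset a, ind (s(a, b) ∈ R) *
            (1 - t ^ csz ((T ∩ offE Λ (cl T x : Set V)) ∪
              (R ∩ offE Λ (cl T x : Set V))) b)) :=
          Vale.Agent.P151.Ex_mono hs0 hs1 fun R hR => ghost_pointwise hT hR x ht0 ht1
      _ = _ := by
          rw [Vale.Agent.P151.Ex_add, Vale.Agent.P151.Ex_const, Vale.Agent.P151.Ex_const_mul,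
            Vale.Agent.P151.Ex_sum]
          congr 2
          exact Finset.sum_congr rfl fun a _ => Vale.Agent.P151.Ex_sum _ _ _ _
  have e4 : Ex q Λ (fun T => Φ (clS T {x}) (T ∩ offE Λ (clS T {x}))) ≤
      Ex q Λ (fun S => (csz S x : ℝ) * t ^ csz S x * (d * s * m)) := by
    rw [explore q Λ {x} Φ]
    refine Vale.Agent.P151.Ex_mono h0 hq1.le fun S hS => ?_
    rw [gn_clS, hΦ]
    simp only
    have e2 : t ^ (cl S x : Set V).ncard = t ^ csz S x := by
      rw [Set.ncard_coe_finset]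
      rfl
    rw [e2, Vale.Agent.P151.Ex_const_mul, Vale.Agent.P151.Ex_sum]
    have e5 : ∑ a ∈ F ∪ {x}, Ex q Λ (fun T => ∑ b ∈ G.neighborFinset a,
        ind (a ∈ (cl S x : Set V)) * Ex s Λ (fun R => ind (s(a, b) ∈ R) *
          (1 - t ^ csz ((T ∩ offE Λ (cl S x : Set V)) ∪ (R ∩ offE Λ (cl S x : Set V))) b))) =
        ∑ a ∈ cl S x, ∑ b ∈ G.neighborFinset a, Ex q Λ (fun T => Ex s Λ (fun R =>
          ind (s(a, b) ∈ R) * (1 - t ^ csz ((T ∩ offE Λ (cl S x : Set V)) ∪
            (R ∩ offE Λ (cl S x : Set V))) b))) := by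
      rw [← hsumcl S hS]
      refine Finset.sum_congr rfl fun a _ => ?_
      rw [Vale.Agent.P151.Ex_sum, Finset.mul_sum]
      exact Finset.sum_congr rfl fun b _ => Vale.Agent.P151.Ex_const_mul _ _ _ _
    rw [e5]
    have e6 : ∑ a ∈ cl S x, ∑ b ∈ G.neighborFinset a, Ex q Λ (fun T => Ex s Λ (fun R =>
          ind (s(a, b) ∈ R) * (1 - t ^ csz ((T ∩ offE Λ (cl S x : Set V)) ∪
            (R ∩ offE Λ (cl S x : Set V))) b))) ≤ (csz S x : ℝ) * (d * (s * m)) := by
      calc _ ≤ ∑ a ∈ cl S x, (d * (s * m) : ℝ) := by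
            refine Finset.sum_le_sum fun a ha => ?_
            calc _ ≤ ∑ _b ∈ G.neighborFinset a, s * m :=
                  Finset.sum_le_sum fun b _ => hedge _ a b (Finset.mem_coe.2 ha)
              _ = (G.degree a : ℝ) * (s * m) := by
                  rw [Finset.sum_const, nsmul_eq_mul, G.card_neighborFinset_eq_degree]
              _ ≤ _ := mul_le_mul_of_nonneg_right (by exact_mod_cast hd a)
                  (mul_nonneg hs0 hm0)
        _ = _ := by
            rw [Finset.sum_const, nsmul_eq_mul]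
            rfl
    have e7 : 0 ≤ t ^ csz S x := pow_nonneg ht0 _
    calc _ ≤ t ^ csz S x * ((csz S x : ℝ) * (d * (s * m))) := mul_le_mul_of_nonneg_left e6 e7
      _ = _ := by ring
  rw [e0]
  refine e1.trans ?_
  rw [Vale.Agent.P151.Ex_mul_const] at e4
  have e8 : mF G q t F x = Ex q Λ (fun T => 1 - t ^ csz T x) := rfl
  rw [e8]
  calc _ ≤ Ex q Λ (fun T => 1 - t ^ csz T x) +
        Ex q Λ (fun S => (csz S x : ℝ) * t ^ csz S x) * (d * s * m) := by
        linarith only [e4]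
    _ = _ := by ring

end Vale.Agent.P165.H177
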