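import Vale.Agent.P165.H177.Ghost

/-!
# The ghost magnetization is Lipschitz in the parameter near `p_c`, given block `BA1`
-/

set_option autoImplicit false
set_option linter.unusedSectionVars false

open Finset

namespace Vale.Agent.P165.H177

open Vale.Agent.P151 (Ex Cn cl csz edgesIn EV con tau)
open Vale.Agent.P165.LF Vale.Agent.P165.BS Vale.Agent.P165.BS2 Vale.Agent.P165.H794
open Vale.Agent.P165.H199

variable {V : Type} [DecidableEq V] {G : SimpleGraph V}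

theorem gh_nonneg {t : ℝ} (ht0 : 0 ≤ t) (ht1 : t ≤ 1) (x : V) (S : Finset (Sym2 V)) :
    0 ≤ 1 - t ^ csz S x := by
  have := pow_le_one₀ (n := csz S x) ht0 ht1
  linarith only [this]

theorem gh_le_one {t : ℝ} (ht0 : 0 ≤ t) (x : V) (S : Finset (Sym2 V)) :
    1 - t ^ csz S x ≤ 1 := by
  have := pow_nonneg ht0 (csz S x)
  linarith only [this]

theorem mF_le_mI {q t : ℝ} (h0 : 0 ≤ q) (h1 : q ≤ 1) (ht0 : 0 ≤ t) (F : Finset V) (x : V) :
    mF G q t F x ≤ mI G q t x :=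
  Vale.Agent.P151.le_EV (G := G) h0 h1 (gh_le_one ht0 x) F

theorem mI_le_one {q t : ℝ} (h0 : 0 ≤ q) (h1 : q ≤ 1) (ht0 : 0 ≤ t) (x : V) :
    mI G q t x ≤ 1 :=
  Vale.Agent.P151.EV_le_one (G := G) h0 h1 (gh_le_one ht0 x)

theorem mI_le_mM {q t : ℝ} (h0 : 0 ≤ q) (h1 : q ≤ 1) (ht0 : 0 ≤ t) (x : V) :
    mI G q t x ≤ mM G q t := by
  refine le_ciSup (f := fun x => mI G q t x) ⟨1, ?_⟩ x
  rintro _ ⟨y, rfl⟩
  exact mI_le_one h0 h1 ht0 y

theorem mF_le_mM {q t : ℝ} (h0 : 0 ≤ q) (h1 : q ≤ 1) (ht0 : 0 ≤ t) (F : Finset V) (x : V) :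
    mF G q t F x ≤ mM G q t :=
  (mF_le_mI h0 h1 ht0 F x).trans (mI_le_mM h0 h1 ht0 x)

theorem mM_le [Nonempty V] {q t c : ℝ} (h : ∀ (F : Finset V) (x : V), mF G q t F x ≤ c) :
    mM G q t ≤ c :=
  ciSup_le fun x => Vale.Agent.P151.EV_le fun F => h F x

theorem mF_mono {q t : ℝ} (h0 : 0 ≤ q) (h1 : q ≤ 1) (ht0 : 0 ≤ t) (ht1 : t ≤ 1)
    {F F' : Finset V} (hF : F ⊆ F') (x : V) : mF G q t F x ≤ mF G q t F' x :=
  Vale.Agent.P151.Ex_edgesIn_mono h0 h1 (anti_pow_csz ht0 ht1 x) hF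

theorem mM_mono [Nonempty V] {q r t : ℝ} (h0 : 0 ≤ q) (hqr : q ≤ r) (h1 : r ≤ 1) (ht0 : 0 ≤ t)
    (ht1 : t ≤ 1) : mM G q t ≤ mM G r t := by
  refine mM_le fun F x => ?_
  refine le_trans ?_ (mF_le_mM (h0.trans hqr) h1 ht0 F x)
  exact Vale.Agent.P151.Ex_mono_p h0 hqr h1 _ (anti_pow_csz ht0 ht1 x)

theorem one_sub_le_mM [Nonempty V] {q t : ℝ} (h0 : 0 ≤ q) (h1 : q ≤ 1) (ht0 : 0 ≤ t)
    (ht1 : t ≤ 1) : 1 - t ≤ mM G q t := by
  obtain ⟨x⟩ := ‹Nonempty V›
  refine le_trans ?_ (mF_le_mM h0 h1 ht0 (∅ : Finset V) x)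
  unfold mF
  rw [← Vale.Agent.P151.Ex_const q (edgesIn G (∅ : Finset V)) (1 - t)]
  refine Vale.Agent.P151.Ex_mono h0 h1 fun S _ => ?_
  have h2 : t ^ csz S x ≤ t := by
    have h3 := pow_le_pow_of_le_one ht0 ht1 (Vale.Agent.P151.csz_pos S x)
    rwa [pow_one] at h3
  linarith only [h2]

/-- One step of the increment bound. -/
theorem mM_step [Nonempty V] [G.LocallyFinite] {d : ℕ} (hd : ∀ x, G.degree x ≤ d) {q r : ℝ}
    (h0 : 0 ≤ q) (hqr : q ≤ r) (hq1 : q < 1) (h1 : r ≤ 1) {t : ℝ} (ht0 : 0 < t) (ht1 : t < 1)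
    {C : ℝ} (hB : ∀ x : V, ∃ F0 : Finset V, ∀ F : Finset V, F0 ⊆ F →
      mM G q t * Ex q (edgesIn G F) (fun S => (csz S x : ℝ) * t ^ csz S x) ≤ C) :
    mM G r t ≤ mM G q t + d * ((r - q) / (1 - q)) * mM G r t * (C / mM G q t) := by
  have hmq : 0 < mM G q t :=
    lt_of_lt_of_le (by linarith only [ht1]) (one_sub_le_mM h0 hq1.le ht0.le ht1.le)
  have hmr : 0 ≤ mM G r t := hmq.le.trans (mM_mono h0 hqr h1 ht0.le ht1.le)
  have hs0 : 0 ≤ (r - q) / (1 - q) := div_nonneg (by linarith only [hqr]) (by linarith only [hq1])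
  refine mM_le fun F x => ?_
  obtain ⟨F0, hF0⟩ := hB x
  refine (mF_mono (h0.trans hqr) h1 ht0.le ht1.le (Finset.subset_union_left (s₂ := F0)) x).trans ?_
  have h2 := hF0 (F ∪ F0) Finset.subset_union_right
  have h3 := mF_step (G := G) hd h0 hqr hq1 h1 ht0.le ht1.le (F ∪ F0)
    (fun b => mF_le_mM (h0.trans hqr) h1 ht0.le (F ∪ F0) b) x
  have h4 : Ex q (edgesIn G (F ∪ F0)) (fun S => (csz S x : ℝ) * t ^ csz S x) ≤ C / mM G q t := by
    rw [le_div_iff₀ hmq, mul_comm]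
    exact h2
  refine h3.trans (add_le_add (mF_le_mM h0 hq1.le ht0.le _ x) ?_)
  exact mul_le_mul_of_nonneg_left h4
    (mul_nonneg (mul_nonneg (Nat.cast_nonneg _) hs0) hmr)

/-- An increment bound from small steps. -/
theorem lipschitz_of_step {a b K m0 : ℝ} (hK : 0 < K) (hm0 : 0 < m0) (f : ℝ → ℝ)
    (hf0 : ∀ q, a ≤ q → q ≤ b → m0 ≤ f q)
    (hstep : ∀ q r, a ≤ q → q ≤ r → r ≤ b → f r ≤ f q + K * (r - q) * f r / f q) :
    ∀ q r, a ≤ q → q ≤ r → r ≤ b → f r ≤ f q + 2 * K * (r - q) := by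
  -- small steps
  have hsmall : ∀ q r, a ≤ q → q ≤ r → r ≤ b → K * (r - q) ≤ m0 / 2 →
      f r ≤ f q + 2 * K * (r - q) := by
    intro q r hq hqr hr hs
    have hfq := hf0 q hq (hqr.trans hr)
    have hfr := hf0 r (hq.trans hqr) hr
    have hfq0 : 0 < f q := lt_of_lt_of_le hm0 hfq
    have hfr0 : 0 < f r := lt_of_lt_of_le hm0 hfr
    have h1 := hstep q r hq hqr hr
    have hKr : 0 ≤ K * (r - q) := mul_nonneg hK.le (by linarith only [hqr])
    have h2 : K * (r - q) * f r / f q ≤ f r / 2 := by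
      rw [div_le_iff₀ hfq0]
      nlinarith only [hs, hfq, hfr0, hKr]
    have h3 : f r ≤ 2 * f q := by linarith only [h1, h2]
    have h4 : K * (r - q) * f r / f q ≤ 2 * K * (r - q) := by
      rw [div_le_iff₀ hfq0]
      nlinarith only [h3, hKr]
    linarith only [h1, h4]
  intro q r hq hqr hr
  -- number of steps
  obtain ⟨N, hN⟩ := exists_nat_gt (K * (r - q) / (m0 / 2))
  have hN0 : 0 < (N : ℝ) := lt_of_le_of_lt
    (div_nonneg (mul_nonneg hK.le (by linarith only [hqr])) (by linarith only [hm0])) hN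
  set δ := (r - q) / N with hδ
  have hδ0 : 0 ≤ δ := div_nonneg (by linarith only [hqr]) hN0.le
  have hNδ : N * δ = r - q := by rw [hδ]; field_simp
  have hKδ : K * δ ≤ m0 / 2 := by
    rw [div_lt_iff₀ (by linarith only [hm0])] at hN
    have h5 : (N : ℝ) * (K * δ) ≤ N * (m0 / 2) := by
      have : (N : ℝ) * (K * δ) = K * (r - q) := by rw [← hNδ]; ring
      rw [this]
      exact hN.le
    exact le_of_mul_le_mul_left h5 hN0
  have hind : ∀ n : ℕ, n ≤ N → f (q + n * δ) ≤ f q + 2 * K * (n * δ) := by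
    intro n
    induction n with
    | zero => intro _; simp
    | succ n ih =>
      intro hn
      have h6 := ih (Nat.le_of_succ_le hn)
      have hn' : ((n + 1 : ℕ) : ℝ) ≤ N := by exact_mod_cast hn
      have hnδ : 0 ≤ (n : ℝ) * δ := mul_nonneg (Nat.cast_nonneg _) hδ0
      have h7 : ((n + 1 : ℕ) : ℝ) * δ ≤ r - q := by
        rw [← hNδ]
        exact mul_le_mul_of_nonneg_right hn' hδ0
      push_cast at h7 ⊢
      have h8 := hsmall (q + n * δ) (q + (n + 1) * δ) (by linarith only [hq, hnδ])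
        (by nlinarith only [hδ0]) (by linarith only [h7, hr])
        (by
          have : q + (n + 1) * δ - (q + n * δ) = δ := by ring
          rw [this]; exact hKδ)
      have h9 : q + (n + 1) * δ - (q + n * δ) = δ := by ring
      rw [h9] at h8
      nlinarith only [h6, h8]
  have h10 := hind N le_rfl
  rw [hNδ] at h10
  have h11 : q + (r - q) = r := by ring
  rwa [h11] at h10

/-- Block (B0): the ghost magnetization is Lipschitz in the parameter, uniformly in `t`. -/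
theorem mM_lipschitz [Infinite V] [G.LocallyFinite] (hG : G.Connected)
    (hqt : IsQuasiTransitive G) (hb : BA1 G) :
    ∃ p₁ K : ℝ, pc G < p₁ ∧ p₁ < 1 ∧ 0 < K ∧ ∀ t : ℝ, 0 < t → t < 1 → ∀ q r : ℝ,
      pc G / 2 ≤ q → q ≤ r → r ≤ p₁ → mM G r t ≤ mM G q t + K * (r - q) := by
  obtain ⟨p₁, C, hp₁, hp1, hC, hB⟩ := hb
  have hne : Nonempty V := hG.nonempty
  have hpc0 := pc_pos (G := G) hG hqt
  obtain ⟨d, hd1, hd⟩ := LF.exists_degree_bound (G := G) hqt
  have hd1' : (1 : ℝ) ≤ d := by exact_mod_cast hd1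
  have h1p : 0 < 1 - p₁ := by linarith only [hp1]
  have hK : 0 < d * C / (1 - p₁) := by positivity
  refine ⟨p₁, 2 * (d * C / (1 - p₁)), hp₁, hp1, by positivity, fun t ht0 ht1 q r hq hqr hr => ?_⟩
  refine lipschitz_of_step (a := pc G / 2) (b := p₁) hK (m0 := 1 - t) (by linarith only [ht1])
    (fun q => mM G q t) ?_ ?_ q r hq hqr hr
  · intro q hq hq1
    exact one_sub_le_mM (by linarith only [hpc0, hq]) (by linarith only [hq1, hp1]) ht0.le ht1.le
  · intro q r hq hqr hr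
    have hq0 : 0 ≤ q := by linarith only [hpc0, hq]
    have hq1 : q < 1 := by linarith only [hqr, hr, hp1]
    have hr1 : r ≤ 1 := by linarith only [hr, hp1]
    have h1 := mM_step (G := G) hd hq0 hqr hq1 hr1 ht0 ht1
      (fun x => hB q t hq (hqr.trans hr) ht0 ht1 x)
    have hmq : 0 < mM G q t :=
      lt_of_lt_of_le (by linarith only [ht1]) (one_sub_le_mM hq0 hq1.le ht0.le ht1.le)
    have hmr : 0 ≤ mM G r t := hmq.le.trans (mM_mono hq0 hqr hr1 ht0.le ht1.le)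
    have h2 : (r - q) / (1 - q) ≤ (r - q) / (1 - p₁) :=
      div_le_div_of_nonneg_left (by linarith only [hqr]) h1p (by linarith only [hqr, hr])
    refine h1.trans (add_le_add le_rfl ?_)
    have h3 : d * ((r - q) / (1 - q)) * mM G r t * (C / mM G q t) ≤
        d * ((r - q) / (1 - p₁)) * mM G r t * (C / mM G q t) := by
      refine mul_le_mul_of_nonneg_right (mul_le_mul_of_nonneg_right
        (mul_le_mul_of_nonneg_left h2 (Nat.cast_nonneg _)) hmr) (div_nonneg hC.le hmq.le)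
    refine h3.trans (le_of_eq ?_)
    field_simp

end Vale.Agent.P165.H177
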