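import Vale.Agent.P165.H199.Mom
import Vale.Agent.P165.H177.Low

/-!
# Lower bounds for the moments of the cluster size below `p_c`
-/

set_option autoImplicit false
set_option linter.unusedSectionVars false

open Finset

namespace Vale.Agent.P165.H177

open Vale.Agent.P151 (Ex Cn cl csz edgesIn EV con tau)
open Vale.Agent.P165.LF Vale.Agent.P165.BS Vale.Agent.P165.BS2 Vale.Agent.P165.H794
open Vale.Agent.P165.H199

variable {V : Type} [DecidableEq V] {G : SimpleGraph V}

/-- Below `p_c` the cluster has at least `n` points with probability of order `p_c - q`, up to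
`n` of order `(p_c - q)^(-2)`. -/
theorem tail_below [Infinite V] [G.LocallyFinite] (hG : G.Connected) (hqt : IsQuasiTransitive G)
    (hna : 0 < vertexCheeger G) (hU : TailUp G) :
    ∃ κ c : ℝ, 0 < κ ∧ 0 < c ∧ ∀ q, pc G / 2 ≤ q → q < pc G → ∀ n : ℕ, 1 ≤ n →
      √(n : ℝ) ≤ κ / (pc G - q) → ∀ x : V, ∃ F : Finset V,
        c * (pc G - q) ≤ Ex q (edgesIn G F) (fun S => ind (n ≤ csz S x)) := by
  have hne : Nonempty V := hG.nonempty
  have hpc0 := pc_pos (G := G) hG hqt
  have hpc1 := pc_lt_one (G := G) hG hqt hna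
  obtain ⟨A, hA, hup⟩ := hU
  obtain ⟨C, hC, hchi⟩ := chi_upper hG hqt hna
  obtain ⟨d, hd1, hd⟩ := LF.exists_degree_bound (G := G) hqt
  have hd1' : (1 : ℝ) ≤ d := by exact_mod_cast hd1
  have hp20 : 0 < pc G / 2 := by linarith only [hpc0]
  obtain ⟨c0, hc0, hc01, hvol⟩ := exists_vol_lower hG hqt hp20 (by linarith only [hpc1, hpc0])
  set c1 := (1 - pc G) / (2 * d) with hc1
  have h1pc : 0 < 1 - pc G := by linarith only [hpc1]
  have hc10 : 0 < c1 := by positivity
  refine ⟨c0 * c1 / (4 * A), c0 ^ 2 / 4 / C, by positivity, by positivity,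
    fun q hq1 hq2 n hn hnq x => ?_⟩
  have hn0 : (0 : ℝ) < n := by exact_mod_cast hn
  have hsq : 0 < √(n : ℝ) := Real.sqrt_pos.2 hn0
  have hq0 : 0 ≤ q := by linarith only [hq1, hpc0]
  have hq11 : q ≤ 1 := hq2.le.trans hpc1.le
  have hs : Sub G q := sub_of_lt_pc hG hqt hq0 hq2 hq11
  have hdiff : 0 < pc G - q := by linarith only [hq2]
  have hX1 : 1 ≤ chi G q := one_le_chi hq0 hq11 hs
  have hX0 : 0 < chi G q := by linarith only [hX1]
  have e1 := hchi q hq0 hq2
  have e2 := chi_ge hG hd1 hd hpc1 hq0 hq2 hs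
  rw [← hc1] at e2
  have e3 : 4 * A * √(n : ℝ) ≤ c0 * chi G q := by
    have h2 : 4 * A * √(n : ℝ) ≤ c0 * (c1 / (pc G - q)) := by
      calc 4 * A * √(n : ℝ) ≤ 4 * A * (c0 * c1 / (4 * A) / (pc G - q)) :=
            mul_le_mul_of_nonneg_left hnq (by positivity)
        _ = c0 * (c1 / (pc G - q)) := by field_simp
    exact h2.trans (mul_le_mul_of_nonneg_left e2 hc0.le)
  obtain ⟨F0, hF0⟩ := hvol q hq1 hq11 hs {x}
  have e4 := hF0 F0 subset_rfl x (Finset.mem_singleton_self x)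
  refine ⟨F0, ?_⟩
  set Λ := edgesIn G F0 with hΛ
  set P := Ex q Λ (fun S => ind (n ≤ csz S x)) with hP
  have e5 : Ex q Λ (fun S => (csz S x : ℝ) * (1 - ind (n ≤ csz S x))) ≤ 2 * A * √(n : ℝ) := by
    refine (trunc_le (G := G) hq0 hq11 n F0 x).trans ?_
    calc ∑ k ∈ Finset.range n, Ex q (edgesIn G F0) (fun S => ind (k + 1 ≤ csz S x))
        ≤ ∑ k ∈ Finset.range n, A * (1 / √((k : ℝ) + 1)) := by
          refine Finset.sum_le_sum fun k _ => ?_
          have h1 := hup (k + 1) (Nat.le_add_left 1 k) x F0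
          have h2 := Vale.Agent.P151.Ex_mono_p hq0 hq2.le hpc1.le (edgesIn G F0)
            (tail_mono (k + 1) x)
          refine (h2.trans h1).trans (le_of_eq ?_)
          push_cast
          rw [mul_one_div]
      _ = A * ∑ k ∈ Finset.range n, 1 / √((k : ℝ) + 1) := by rw [Finset.mul_sum]
      _ ≤ A * (2 * √(n : ℝ)) := mul_le_mul_of_nonneg_left (sum_inv_sqrt_le n) hA.le
      _ = _ := by ring
  have e6 : vol G q (x, F0) = Ex q Λ (fun S => (csz S x : ℝ) * (1 - ind (n ≤ csz S x))) +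
      Ex q Λ (fun S => (csz S x : ℝ) * ind (n ≤ csz S x)) := by
    rw [← Vale.Agent.P151.Ex_add]
    unfold vol
    exact Vale.Agent.P151.Ex_congr q fun S _ => by ring
  have e7 : c0 * chi G q / 2 ≤ Ex q Λ (fun S => (csz S x : ℝ) * ind (n ≤ csz S x)) := by
    linarith only [e3, e4, e5, e6]
  have e8 := Ex_cauchy hq0 hq11 Λ (fun S => (csz S x : ℝ)) (fun S => ind (n ≤ csz S x))
  have e9 : Ex q Λ (fun S => (ind (n ≤ csz S x)) ^ 2) = P := by
    refine Vale.Agent.P151.Ex_congr q fun S _ => ?_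
    by_cases h : n ≤ csz S x
    · rw [ind_true h, one_pow]
    · rw [ind_false h]; norm_num
  rw [e9] at e8
  have e10 : Ex q Λ (fun S => (csz S x : ℝ) ^ 2) ≤ chi G q ^ 3 :=
    second_moment G hq0 hq11 (fun z => csz_le_chi hs z.1 z.2) x F0
  have hP0 : 0 ≤ P := tail_nonneg hq0 hq11 n F0 x
  have e11 : (c0 * chi G q / 2) ^ 2 ≤ chi G q ^ 3 * P := by
    refine (pow_le_pow_left₀ (by positivity) e7 2).trans (e8.trans ?_)
    exact mul_le_mul_of_nonneg_right e10 hP0
  have e12 : c0 ^ 2 / 4 ≤ chi G q * P := by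
    have h1 : chi G q ^ 2 * (c0 ^ 2 / 4) ≤ chi G q ^ 2 * (chi G q * P) := by
      calc chi G q ^ 2 * (c0 ^ 2 / 4) = (c0 * chi G q / 2) ^ 2 := by ring
        _ ≤ chi G q ^ 3 * P := e11
        _ = _ := by ring
    exact le_of_mul_le_mul_left h1 (by positivity)
  have h1 : chi G q * P ≤ C / (pc G - q) * P := mul_le_mul_of_nonneg_right e1 hP0
  have h2 : c0 ^ 2 / 4 ≤ C / (pc G - q) * P := e12.trans h1
  calc c0 ^ 2 / 4 / C * (pc G - q) ≤ C / (pc G - q) * P / C * (pc G - q) := by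
        refine mul_le_mul_of_nonneg_right (div_le_div_of_nonneg_right h2 hC.le) hdiff.le
    _ = P := by field_simp

/-- Block (E3): lower bounds for all moments below `p_c`. -/
theorem e3 [Infinite V] [G.LocallyFinite] (hG : G.Connected) (hqt : IsQuasiTransitive G)
    (hna : 0 < vertexCheeger G) (hU : TailUp G) : E3 G := by
  intro k hk
  have hpc0 := pc_pos (G := G) hG hqt
  have hpc1 := pc_lt_one (G := G) hG hqt hna
  obtain ⟨κ, c, hκ, hc, htail⟩ := tail_below hG hqt hna hU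
  set δ := min (pc G / 2) κ with hδ
  have hδ0 : 0 < δ := lt_min (by linarith only [hpc0]) hκ
  refine ⟨min (δ ^ (2 * k - 1)) (c * (κ ^ 2 / 2) ^ k), lt_min (by positivity) (by positivity),
    fun q hq0 hq2 x => ?_⟩
  have hdiff : 0 < pc G - q := by linarith only [hq2]
  have hq1 : q ≤ 1 := hq2.le.trans hpc1.le
  have hpow : 0 < (pc G - q) ^ (2 * k - 1) := by positivity
  rcases le_or_gt δ (pc G - q) with h | h
  · refine ⟨∅, ?_⟩
    have e1 : (1 : ℝ) ≤ Ex q (edgesIn G (∅ : Finset V)) (fun S => (csz S x : ℝ) ^ k) := by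
      have h2 := Vale.Agent.P151.Ex_mono hq0 hq1 (Λ := edgesIn G (∅ : Finset V))
        (F := fun _ => (1 : ℝ)) (G := fun S => (csz S x : ℝ) ^ k) (fun S _ => by
          have h3 : (1 : ℝ) ≤ csz S x := by exact_mod_cast Vale.Agent.P151.csz_pos S x
          exact one_le_pow₀ h3)
      rwa [Vale.Agent.P151.Ex_const] at h2
    refine le_trans ?_ e1
    rw [div_le_one hpow]
    exact (min_le_left _ _).trans (pow_le_pow_left₀ hδ0.le h _)
  · have hq12 : pc G / 2 ≤ q := by
      have := h.le.trans (min_le_left _ _)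
      linarith only [this]
    have hκq : pc G - q ≤ κ := h.le.trans (min_le_right _ _)
    set z := κ / (pc G - q) with hz
    have hz1 : 1 ≤ z := by rw [hz, one_le_div hdiff]; exact hκq
    have hz2 : 1 ≤ z ^ 2 := one_le_pow₀ hz1
    set n := ⌊z ^ 2⌋₊ with hn
    have hn1 : 1 ≤ n := Nat.one_le_iff_ne_zero.2 (Nat.floor_pos.2 hz2).ne'
    have hnle : (n : ℝ) ≤ z ^ 2 := Nat.floor_le (by positivity)
    have hnge : z ^ 2 / 2 ≤ (n : ℝ) := by
      have h1 : z ^ 2 < n + 1 := Nat.lt_floor_add_one _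
      have h2 : (1 : ℝ) ≤ n := by exact_mod_cast hn1
      linarith only [h1, h2]
    have hsq : √(n : ℝ) ≤ z := by
      rw [Real.sqrt_le_left (by linarith only [hz1])]
      exact hnle
    obtain ⟨F, hF⟩ := htail q hq12 hq2 n hn1 hsq x
    refine ⟨F, ?_⟩
    have e1 : (n : ℝ) ^ k * Ex q (edgesIn G F) (fun S => ind (n ≤ csz S x)) ≤
        Ex q (edgesIn G F) (fun S => (csz S x : ℝ) ^ k) := by
      rw [← Vale.Agent.P151.Ex_const_mul]
      refine Vale.Agent.P151.Ex_mono hq0 hq1 fun S _ => ?_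
      by_cases h : n ≤ csz S x
      · rw [ind_true h, mul_one]
        exact pow_le_pow_left₀ (Nat.cast_nonneg _) (by exact_mod_cast h) _
      · rw [ind_false h, mul_zero]
        positivity
    refine le_trans ?_ e1
    have e2 : (z ^ 2 / 2) ^ k * (c * (pc G - q)) ≤
        (n : ℝ) ^ k * Ex q (edgesIn G F) (fun S => ind (n ≤ csz S x)) :=
      mul_le_mul (pow_le_pow_left₀ (by positivity) hnge k) hF (by positivity) (by positivity)
    refine le_trans ?_ e2
    rw [div_le_iff₀ hpow]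
    refine (min_le_right _ _).trans (le_of_eq ?_)
    obtain ⟨j, rfl⟩ : ∃ j, k = j + 1 := ⟨k - 1, by omega⟩
    have h3 : 2 * (j + 1) - 1 = 2 * j + 1 := by omega
    rw [h3]
    have h4 : (pc G - q) * (pc G - q) ^ (2 * j + 1) = ((pc G - q) ^ 2) ^ (j + 1) := by
      rw [← pow_mul]
      ring
    have h5 : κ ^ 2 / 2 = z ^ 2 / 2 * (pc G - q) ^ 2 := by
      rw [hz]
      field_simp
    rw [h5, mul_pow, ← h4]
    ring

end Vale.Agent.P165.H177
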