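import Vale.Agent.P165.H115.Moments
import Vale.Agent.P165.H633.Split
import Vale.Agent.P165.H177.MomLow

/-!
# The cluster tail below `p_c` in the whole scaling window

`P_q(|K_x| ≥ n) ≤ C n^(-1/2) exp(-c (p_c - q)^2 n)` for all `q < p_c` and `n ≥ 1`, and
`P_q(|K_x| ≥ n) ≥ c n^(-1/2)` for `n ≤ c (p_c - q)^(-2)`.
-/

set_option autoImplicit false
set_option linter.unusedSectionVars false

open Finset

namespace Vale.Agent.P165.H177

open Vale.Agent.P151 (Ex Cn cl csz edgesIn EV con tau)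
open Vale.Agent.P165.LF Vale.Agent.P165.BS Vale.Agent.P165.BS2 Vale.Agent.P165.H794
open Vale.Agent.P165.H199 Vale.Agent.P165.H115
open scoped Nat

variable {V : Type} [DecidableEq V] {G : SimpleGraph V}

/-- The Catalan recursion summed over the splittings of a set of `m + 2` points. -/
theorem sum_split_catalan (m : ℕ) :
    ∑ J ∈ (univ : Finset (Finset (Fin (m + 2)))).filter
        (fun J => J.Nonempty ∧ (univ \ J).Nonempty),
      (J.card ! * catalan (J.card - 1) * ((m + 2 - J.card)! * catalan (m + 2 - J.card - 1))) =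
      (m + 2)! * catalan (m + 1) := by
  set g : ℕ → ℕ := fun j => if j ≠ 0 ∧ j ≠ m + 2 then
    j ! * catalan (j - 1) * ((m + 2 - j)! * catalan (m + 2 - j - 1)) else 0 with hg
  have h1 : ∑ J ∈ (univ : Finset (Finset (Fin (m + 2)))).filter
        (fun J => J.Nonempty ∧ (univ \ J).Nonempty),
      (J.card ! * catalan (J.card - 1) * ((m + 2 - J.card)! * catalan (m + 2 - J.card - 1))) =
      ∑ J ∈ (univ : Finset (Fin (m + 2))).powerset, g J.card := by
    rw [Finset.powerset_univ, Finset.sum_filter]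
    refine Finset.sum_congr rfl fun J _ => ?_
    have h2 : (J.Nonempty ∧ (univ \ J).Nonempty) ↔ (J.card ≠ 0 ∧ J.card ≠ m + 2) := by
      have h3 : (univ \ J).Nonempty ↔ J.card ≠ m + 2 := by
        rw [← Finset.card_pos, Finset.card_sdiff_of_subset (Finset.subset_univ J),
          Finset.card_univ, Fintype.card_fin]
        have h4 : J.card ≤ m + 2 := by
          have := Finset.card_le_univ J
          rwa [Fintype.card_fin] at this
        omega
      rw [h3, ← Finset.card_pos]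
      omega
    simp only [hg]
    by_cases h : J.Nonempty ∧ (univ \ J).Nonempty
    · rw [if_pos h, if_pos (h2.1 h)]
    · rw [if_neg h, if_neg (fun h' => h (h2.2 h'))]
  rw [h1, Finset.sum_powerset_apply_card, Finset.card_univ, Fintype.card_fin]
  have h5 : g 0 = 0 := by simp [hg]
  have h6 : g (m + 2) = 0 := by simp [hg]
  rw [Finset.sum_range_succ, h6, smul_zero, add_zero, Finset.sum_range_succ', h5, smul_zero,
    add_zero, catalan_succ, ← Finset.sum_range (fun i => catalan i * catalan (m - i)),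
    Finset.mul_sum]
  refine Finset.sum_congr rfl fun i hi => ?_
  rw [Finset.mem_range] at hi
  have h7 : g (i + 1) = (i + 1)! * catalan i * ((m + 1 - i)! * catalan (m - i)) := by
    simp only [hg]
    rw [if_pos (by omega)]
    have e1 : i + 1 - 1 = i := by omega
    have e2 : m + 2 - (i + 1) = m + 1 - i := by omega
    have e3 : m + 1 - i - 1 = m - i := by omega
    rw [e1, e2, e3]
  have h8 : (m + 2).choose (i + 1) * (i + 1)! * (m + 1 - i)! = (m + 2)! := by
    have h9 := Nat.choose_mul_factorial_mul_factorial (n := m + 2) (k := i + 1) (by omega)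
    have e2 : m + 2 - (i + 1) = m + 1 - i := by omega
    rwa [e2] at h9
  rw [h7, smul_eq_mul, ← h8]
  ring

theorem moment_explicit (hE : E1 V) {q X : ℝ} (h0 : 0 ≤ q) (h1 : q ≤ 1)
    (hX : ∀ z, vol G q z ≤ X) (n : ℕ) :
    ∀ (x : V) (F : Finset V), Ex q (edgesIn G F) (fun S => (csz S x : ℝ) ^ (n + 1)) ≤
      ((n + 1)! : ℝ) * catalan n * X ^ (2 * n + 1) := by
  induction n using Nat.strong_induction_on with
  | _ n ih =>
    intro x F
    rcases Nat.eq_zero_or_pos n with rfl | hn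
    · have h2 := hX (x, F)
      unfold vol at h2
      simpa using h2
    · obtain ⟨m, rfl⟩ : ∃ m, n = m + 1 := ⟨n - 1, by omega⟩
      have hX0 : 0 ≤ X := by
        refine le_trans ?_ (hX (x, F))
        exact Vale.Agent.P151.Ex_nonneg h0 h1 fun _ _ => Nat.cast_nonneg _
      set Λ := edgesIn G F with hΛ
      set U := insert x F with hUdef
      have hU : ∀ e ∈ Λ, ∀ v ∈ e, v ∈ U := fun e he v hv =>
        Finset.mem_insert_of_mem ((Vale.Agent.P151.mem_edgesIn.1 he).2 v hv)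
      have hx : x ∈ U := Finset.mem_insert_self x F
      set 𝒥 := (univ : Finset (Finset (Fin (m + 2)))).filter
        (fun J => J.Nonempty ∧ (univ \ J).Nonempty) with h𝒥
      have hcon : ∀ u, 0 ≤ Ex q Λ (con x u) := fun u =>
        Vale.Agent.P151.Ex_nonneg h0 h1 fun S _ => Vale.Agent.P151.con_nonneg x u S
      have hpn : ∀ m u, 0 ≤ Ex q Λ (fun S => (csz S u : ℝ) ^ m) := fun m u =>
        Vale.Agent.P151.Ex_nonneg h0 h1 fun S _ => pow_nonneg (Nat.cast_nonneg _) _
      have hmom : ∀ j, 1 ≤ j → j < m + 2 → ∀ u, Ex q Λ (fun S => (csz S u : ℝ) ^ j) ≤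
          ((j ! * catalan (j - 1) : ℕ) : ℝ) * X ^ (2 * j - 1) := by
        intro j hj1 hj2 u
        obtain ⟨i, rfl⟩ : ∃ i, j = i + 1 := ⟨j - 1, by omega⟩
        have h3 := ih i (by omega) u F
        have e1 : i + 1 - 1 = i := by omega
        have e2 : 2 * (i + 1) - 1 = 2 * i + 1 := by omega
        rw [e1, e2]
        push_cast
        exact h3
      set g : Finset (Fin (m + 2)) → ℕ := fun J =>
        J.card ! * catalan (J.card - 1) * ((m + 2 - J.card)! * catalan (m + 2 - J.card - 1))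
        with hg
      calc Ex q Λ (fun S => (csz S x : ℝ) ^ (m + 1 + 1))
          = ∑ z : Fin (m + 2) → U, Ex q Λ (fun S => ind (∀ i, Cn S x (z i))) := by
            rw [← Vale.Agent.P151.Ex_sum]
            refine Vale.Agent.P151.Ex_congr q fun S hS => ?_
            rw [sum_tuples (fun e he => hU e (hS he)) hx, Fintype.card_fin]
        _ ≤ ∑ z : Fin (m + 2) → U, ∑ u ∈ U, ∑ J ∈ 𝒥,
            Ex q Λ (con x u) * (Ex q Λ (fun S => ind (∀ i ∈ J, Cn S u (z i))) *
              Ex q Λ (fun S => ind (∀ i ∈ univ \ J, Cn S u (z i)))) :=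
            Finset.sum_le_sum fun z _ => split_bound hE h0 h1 Λ U hU hx (by omega) (fun i => z i)
        _ = ∑ u ∈ U, ∑ J ∈ 𝒥, Ex q Λ (con x u) *
            (Ex q Λ (fun S => (csz S u : ℝ) ^ J.card) *
              Ex q Λ (fun S => (csz S u : ℝ) ^ (m + 2 - J.card))) := by
            rw [Finset.sum_comm]
            refine Finset.sum_congr rfl fun u hu => ?_
            rw [Finset.sum_comm]
            refine Finset.sum_congr rfl fun J _ => ?_
            rw [← Finset.mul_sum, sum_blocks Λ U hU hu J]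
        _ ≤ ∑ u ∈ U, ∑ J ∈ 𝒥, Ex q Λ (con x u) * ((g J : ℝ) * X ^ (2 * m + 2)) := by
            refine Finset.sum_le_sum fun u _ => Finset.sum_le_sum fun J hJ => ?_
            refine mul_le_mul_of_nonneg_left ?_ (hcon u)
            obtain ⟨-, hJ1, hJ2⟩ := Finset.mem_filter.1 hJ
            have c1 : 1 ≤ J.card := hJ1.card_pos
            have c2 : 1 ≤ (univ \ J).card := hJ2.card_pos
            rw [Finset.card_sdiff_of_subset (Finset.subset_univ J), Finset.card_univ,
              Fintype.card_fin] at c2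
            have b1 := hmom J.card c1 (by omega) u
            have b2 := hmom (m + 2 - J.card) c2 (by omega) u
            calc Ex q Λ (fun S => (csz S u : ℝ) ^ J.card) *
                  Ex q Λ (fun S => (csz S u : ℝ) ^ (m + 2 - J.card))
                ≤ (((J.card ! * catalan (J.card - 1) : ℕ) : ℝ) * X ^ (2 * J.card - 1)) *
                  ((((m + 2 - J.card)! * catalan (m + 2 - J.card - 1) : ℕ) : ℝ) *
                    X ^ (2 * (m + 2 - J.card) - 1)) :=
                  mul_le_mul b1 b2 (hpn _ _)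
                    (mul_nonneg (Nat.cast_nonneg _) (pow_nonneg hX0 _))
              _ = (g J : ℝ) * X ^ (2 * m + 2) := by
                  have e : 2 * m + 2 = (2 * J.card - 1) + (2 * (m + 2 - J.card) - 1) := by omega
                  rw [e, pow_add, hg]
                  push_cast
                  ring
        _ = (∑ u ∈ U, Ex q Λ (con x u)) * (((∑ J ∈ 𝒥, g J : ℕ) : ℝ) * X ^ (2 * m + 2)) := by
            rw [Finset.sum_mul]
            refine Finset.sum_congr rfl fun u _ => ?_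
            rw [← Finset.mul_sum, ← Finset.sum_mul, Nat.cast_sum]
        _ ≤ X * (((∑ J ∈ 𝒥, g J : ℕ) : ℝ) * X ^ (2 * m + 2)) :=
            mul_le_mul_of_nonneg_right (sum_con_le G h0 h1 hX F U x)
              (mul_nonneg (Nat.cast_nonneg _) (pow_nonneg hX0 _))
        _ = _ := by
            rw [h𝒥, hg, sum_split_catalan m]
            have e : 2 * (m + 1) + 1 = (2 * m + 2) + 1 := by omega
            rw [e, pow_succ]
            push_cast
            ring

theorem catalan_le (n : ℕ) : catalan n ≤ 4 ^ n := by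
  rw [catalan_eq_centralBinom_div]
  exact (Nat.div_le_self _ _).trans (Nat.centralBinom_le_four_pow n)

/-- `P(|K| ≥ n) ≤ (X / n) (k + 1)! (4 X² / n)^k`. -/
theorem tail_le_moment (hE : E1 V) {q X : ℝ} (h0 : 0 ≤ q) (h1 : q ≤ 1)
    (hX : ∀ z, vol G q z ≤ X) (hX0 : 0 ≤ X) {n : ℕ} (hn : 1 ≤ n) (k : ℕ) (x : V) (F : Finset V) :
    Ex q (edgesIn G F) (fun S => ind (n ≤ csz S x)) ≤
      X / n * (((k + 1)! : ℝ) * (4 * X ^ 2 / n) ^ k) := by
  have hn0 : (0 : ℝ) < n := by exact_mod_cast hn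
  have e1 : (n : ℝ) ^ (k + 1) * Ex q (edgesIn G F) (fun S => ind (n ≤ csz S x)) ≤
      Ex q (edgesIn G F) (fun S => (csz S x : ℝ) ^ (k + 1)) := by
    rw [← Vale.Agent.P151.Ex_const_mul]
    refine Vale.Agent.P151.Ex_mono h0 h1 fun S _ => ?_
    by_cases h : n ≤ csz S x
    · rw [ind_true h, mul_one]
      exact pow_le_pow_left₀ (Nat.cast_nonneg _) (by exact_mod_cast h) _
    · rw [ind_false h, mul_zero]
      positivity
  have e2 := e1.trans (moment_explicit hE h0 h1 hX k x F)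
  have e3 : ((k + 1)! : ℝ) * catalan k * X ^ (2 * k + 1) ≤
      ((k + 1)! : ℝ) * 4 ^ k * X ^ (2 * k + 1) := by
    have h3 : (catalan k : ℝ) ≤ 4 ^ k := by exact_mod_cast catalan_le k
    exact mul_le_mul_of_nonneg_right (mul_le_mul_of_nonneg_left h3 (Nat.cast_nonneg _))
      (pow_nonneg hX0 _)
  have e4 := e2.trans e3
  have e5 : X / n * (((k + 1)! : ℝ) * (4 * X ^ 2 / n) ^ k) =
      ((k + 1)! : ℝ) * 4 ^ k * X ^ (2 * k + 1) / (n : ℝ) ^ (k + 1) := by
    rw [div_pow, mul_pow]
    field_simp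
    ring
  rw [e5, le_div_iff₀ (by positivity)]
  linarith only [e4]

/-- The Aizenman–Newman tail bound: `P(|K| ≥ n) ≤ 2 n^(-1/2) exp(-n / (32 X²))` for `n ≥ X²`. -/
theorem tail_exp (hE : E1 V) {q X : ℝ} (h0 : 0 ≤ q) (h1 : q ≤ 1)
    (hX : ∀ z, vol G q z ≤ X) (hX1 : 1 ≤ X) {n : ℕ} (hn : X ^ 2 ≤ n) (x : V) (F : Finset V) :
    Ex q (edgesIn G F) (fun S => ind (n ≤ csz S x)) ≤
      2 / √(n : ℝ) * Real.exp (-((n : ℝ) / (32 * X ^ 2))) := by
  have hX0 : 0 < X := lt_of_lt_of_le one_pos hX1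
  have hX2 : 0 < X ^ 2 := by positivity
  have hn0 : (0 : ℝ) < n := lt_of_lt_of_le hX2 hn
  have hn1 : 1 ≤ n := by
    have : (0 : ℝ) < n := hn0
    exact_mod_cast this
  set y := (n : ℝ) / (16 * X ^ 2) with hy
  have hy0 : 0 ≤ y := by positivity
  set k := ⌊y⌋₊ with hk
  have hky : (k : ℝ) ≤ y := Nat.floor_le hy0
  have hyk : y < k + 1 := Nat.lt_floor_add_one y
  have e1 := tail_le_moment hE h0 h1 hX hX0.le hn1 k x F
  -- `(k+1)! (4 X²/n)^k ≤ (1/2)^k`
  have e2 : ((k + 1)! : ℝ) * (4 * X ^ 2 / n) ^ k ≤ (1 / 2) ^ k := by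
    have h2 : ((k + 1)! : ℝ) ≤ (k + 1) * (k : ℝ) ^ k := by
      rw [Nat.factorial_succ]
      push_cast
      exact mul_le_mul_of_nonneg_left (by exact_mod_cast Nat.factorial_le_pow k) (by positivity)
    have h3 : (k : ℝ) * (4 * X ^ 2 / n) ≤ 1 / 4 := by
      have h4 : (k : ℝ) * (16 * X ^ 2) ≤ n := by
        rw [hy, le_div_iff₀ (by positivity)] at hky
        exact hky
      rw [mul_div_assoc', div_le_iff₀ hn0]
      linarith only [h4]
    have h5 : ((k : ℝ) + 1) ≤ 2 ^ k := by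
      have : k + 1 ≤ 2 ^ k := Nat.lt_two_pow_self
      exact_mod_cast this
    calc ((k + 1)! : ℝ) * (4 * X ^ 2 / n) ^ k ≤ ((k + 1) * (k : ℝ) ^ k) * (4 * X ^ 2 / n) ^ k :=
          mul_le_mul_of_nonneg_right h2 (by positivity)
      _ = (k + 1) * ((k : ℝ) * (4 * X ^ 2 / n)) ^ k := by rw [mul_pow]; ring
      _ ≤ 2 ^ k * (1 / 4) ^ k :=
          mul_le_mul h5 (pow_le_pow_left₀ (by positivity) h3 k) (by positivity) (by positivity)
      _ = (1 / 2) ^ k := by
          rw [← mul_pow]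
          norm_num
  have e3 : ((1 : ℝ) / 2) ^ k ≤ 2 * Real.exp (-((n : ℝ) / (32 * X ^ 2))) := by
    have h6 : (1 : ℝ) / 2 ≤ Real.exp (-(1 / 2)) := by
      have := Real.add_one_le_exp (-(1 / 2) : ℝ)
      linarith only [this]
    have h7 : ((1 : ℝ) / 2) ^ k ≤ Real.exp (-(k / 2)) := by
      refine (pow_le_pow_left₀ (by norm_num) h6 k).trans (le_of_eq ?_)
      rw [← Real.exp_nat_mul]
      congr 1
      ring
    have h8 : -((k : ℝ) / 2) ≤ 1 / 2 + -((n : ℝ) / (32 * X ^ 2)) := by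
      have h9 : (n : ℝ) / (32 * X ^ 2) = y / 2 := by
        rw [hy]
        field_simp
        norm_num
      rw [h9]
      linarith only [hyk]
    have h10 : Real.exp (1 / 2) ≤ 2 := by
      have h11 := h6
      rw [Real.exp_neg] at h11
      have h12 : 0 < Real.exp (1 / 2) := Real.exp_pos _
      rw [le_inv_comm₀ (by norm_num) h12] at h11
      simpa using h11
    calc ((1 : ℝ) / 2) ^ k ≤ Real.exp (-(k / 2)) := h7
      _ ≤ Real.exp (1 / 2 + -((n : ℝ) / (32 * X ^ 2))) := Real.exp_le_exp.2 h8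
      _ = Real.exp (1 / 2) * Real.exp (-((n : ℝ) / (32 * X ^ 2))) := Real.exp_add _ _
      _ ≤ _ := mul_le_mul_of_nonneg_right h10 (Real.exp_pos _).le
  have e4 : X / n ≤ 1 / √(n : ℝ) := by
    have hs : 0 < √(n : ℝ) := Real.sqrt_pos.2 hn0
    have h2 : X ≤ √(n : ℝ) := Real.le_sqrt_of_sq_le hn
    rw [div_le_div_iff₀ hn0 hs, one_mul]
    calc X * √(n : ℝ) ≤ √(n : ℝ) * √(n : ℝ) := mul_le_mul_of_nonneg_right h2 hs.le
      _ = n := Real.mul_self_sqrt hn0.le
  calc _ ≤ X / n * (((k + 1)! : ℝ) * (4 * X ^ 2 / n) ^ k) := e1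
    _ ≤ 1 / √(n : ℝ) * (2 * Real.exp (-((n : ℝ) / (32 * X ^ 2)))) :=
        mul_le_mul e4 (e2.trans e3) (by positivity) (by positivity)
    _ = _ := by ring

/-- The upper bound for the tail below `p_c`, sharp in the whole scaling window. -/
theorem subTailUp [Infinite V] [G.LocallyFinite] (hG : G.Connected) (hqt : IsQuasiTransitive G)
    (hna : 0 < vertexCheeger G) (hU : TailUp G) :
    ∃ c C : ℝ, 0 < c ∧ 0 < C ∧ ∀ q : ℝ, 0 ≤ q → q < pc G → ∀ n : ℕ, 1 ≤ n →
      ∀ (x : V) (F : Finset V), Ex q (edgesIn G F) (fun S => ind (n ≤ csz S x)) ≤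
        C / √(n : ℝ) * Real.exp (-(c * (pc G - q) ^ 2 * n)) := by
  have hne : Nonempty V := hG.nonempty
  have hpc0 := pc_pos (G := G) hG hqt
  have hpc1 := pc_lt_one (G := G) hG hqt hna
  obtain ⟨A, hA, hup⟩ := hU
  obtain ⟨C, hC, hchi⟩ := chi_upper hG hqt hna
  refine ⟨1 / (32 * C ^ 2), max 2 (2 * A), by positivity, by positivity,
    fun q hq0 hq n hn x F => ?_⟩
  have hn0 : (0 : ℝ) < n := by exact_mod_cast hn
  have hsq : 0 < √(n : ℝ) := Real.sqrt_pos.2 hn0
  have hq1 : q ≤ 1 := hq.le.trans hpc1.le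
  have hs : Sub G q := sub_of_lt_pc hG hqt hq0 hq hq1
  have hX1 : 1 ≤ chi G q := one_le_chi hq0 hq1 hs
  have hX0 : 0 < chi G q := by linarith only [hX1]
  have hdiff : 0 < pc G - q := by linarith only [hq]
  have e0 := hchi q hq0 hq
  -- comparison of the exponents
  have e1 : 1 / (32 * C ^ 2) * (pc G - q) ^ 2 * n ≤ n / (32 * chi G q ^ 2) := by
    have h1 : chi G q * (pc G - q) ≤ C := by
      rw [le_div_iff₀ hdiff] at e0
      exact e0
    have h2 : (chi G q * (pc G - q)) ^ 2 ≤ C ^ 2 := pow_le_pow_left₀ (by positivity) h1 2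
    rw [le_div_iff₀ (by positivity)]
    calc 1 / (32 * C ^ 2) * (pc G - q) ^ 2 * (n : ℝ) * (32 * chi G q ^ 2)
        = (chi G q * (pc G - q)) ^ 2 / C ^ 2 * (n : ℝ) := by
          field_simp
      _ ≤ 1 * (n : ℝ) := by
          refine mul_le_mul_of_nonneg_right ?_ hn0.le
          rw [div_le_one (by positivity)]
          exact h2
      _ = (n : ℝ) := one_mul _
  have e2 : Real.exp (-((n : ℝ) / (32 * chi G q ^ 2))) ≤
      Real.exp (-(1 / (32 * C ^ 2) * (pc G - q) ^ 2 * n)) :=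
    Real.exp_le_exp.2 (by linarith only [e1])
  rcases le_or_gt (chi G q ^ 2) n with h | h
  · refine (tail_exp Vale.Agent.P165.H633.e1 hq0 hq1 (fun z => csz_le_chi hs z.1 z.2) hX1 h x F).trans ?_
    exact mul_le_mul (div_le_div_of_nonneg_right (le_max_left _ _) hsq.le) e2
      (Real.exp_pos _).le (by positivity)
  · have h2 := Vale.Agent.P151.Ex_mono_p hq0 hq.le hpc1.le (edgesIn G F) (tail_mono n x)
    have h3 := h2.trans (hup n hn x F)
    refine h3.trans ?_
    have h4 : (1 : ℝ) / 2 ≤ Real.exp (-((n : ℝ) / (32 * chi G q ^ 2))) := by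
      have h5 : (n : ℝ) / (32 * chi G q ^ 2) ≤ 1 / 2 := by
        rw [div_le_iff₀ (by positivity)]
        nlinarith only [h, hX0]
      have h6 := Real.add_one_le_exp (-((n : ℝ) / (32 * chi G q ^ 2)))
      linarith only [h5, h6]
    have h5 := h4.trans e2
    calc A / √(n : ℝ) = 2 * A / √(n : ℝ) * (1 / 2) := by ring
      _ ≤ max 2 (2 * A) / √(n : ℝ) * Real.exp (-(1 / (32 * C ^ 2) * (pc G - q) ^ 2 * n)) :=
        mul_le_mul (div_le_div_of_nonneg_right (le_max_right _ _) hsq.le) h5 (by norm_num)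
          (by positivity)

/-- The lower bound for the tail below `p_c` in the scaling window. -/
theorem subTailLow [Infinite V] [G.LocallyFinite] (hG : G.Connected) (hqt : IsQuasiTransitive G)
    (hna : 0 < vertexCheeger G) (hU : TailUp G) :
    ∃ c : ℝ, 0 < c ∧ ∀ q : ℝ, 0 ≤ q → q < pc G → ∀ n : ℕ, 1 ≤ n →
      (n : ℝ) * (pc G - q) ^ 2 ≤ c → ∀ x : V, ∃ F : Finset V,
        c / √(n : ℝ) ≤ Ex q (edgesIn G F) (fun S => ind (n ≤ csz S x)) := by
  have hpc0 := pc_pos (G := G) hG hqt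
  have hpc1 := pc_lt_one (G := G) hG hqt hna
  obtain ⟨κ, c, hκ, hc, htail⟩ := tail_below hG hqt hna hU
  set δ := min (pc G / 2) κ with hδ
  have hδ0 : 0 < δ := lt_min (by linarith only [hpc0]) hκ
  refine ⟨min (δ ^ 2) (c * δ), lt_min (by positivity) (by positivity),
    fun q hq0 hq n hn hnq x => ?_⟩
  have hn0 : (0 : ℝ) < n := by exact_mod_cast hn
  have hsq : 0 < √(n : ℝ) := Real.sqrt_pos.2 hn0
  have hsq1 : 1 ≤ √(n : ℝ) := by
    rw [Real.one_le_sqrt]
    exact_mod_cast hn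
  have hdiff : 0 < pc G - q := by linarith only [hq]
  have h1 : √(n : ℝ) * (pc G - q) ≤ δ := by
    have h2 : (√(n : ℝ) * (pc G - q)) ^ 2 ≤ δ ^ 2 := by
      rw [mul_pow, Real.sq_sqrt hn0.le]
      exact hnq.trans (min_le_left _ _)
    exact le_of_sq_le_sq h2 hδ0.le
  set r := pc G - δ / √(n : ℝ) with hr
  have hδn : 0 < δ / √(n : ℝ) := by positivity
  have hδn2 : δ / √(n : ℝ) ≤ δ := div_le_self hδ0.le hsq1
  have hr2 : r < pc G := by linarith only [hr, hδn]
  have hr1 : pc G / 2 ≤ r := by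
    have := min_le_left (pc G / 2) κ
    linarith only [hr, hδn2, this, hδ]
  have hrq : r ≤ q := by
    have : pc G - q ≤ δ / √(n : ℝ) := by
      rw [le_div_iff₀ hsq]
      linarith only [h1]
    linarith only [this, hr]
  have hdr : pc G - r = δ / √(n : ℝ) := by rw [hr]; ring
  obtain ⟨F, hF⟩ := htail r hr1 hr2 n hn (by
    rw [hdr, div_div_eq_mul_div, le_div_iff₀ hδ0]
    have := min_le_right (pc G / 2) κ
    rw [mul_comm]
    exact mul_le_mul_of_nonneg_right this hsq.le) x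
  refine ⟨F, ?_⟩
  rw [hdr] at hF
  have h3 : min (δ ^ 2) (c * δ) / √(n : ℝ) ≤ c * (δ / √(n : ℝ)) := by
    rw [mul_div_assoc']
    exact div_le_div_of_nonneg_right (min_le_right _ _) hsq.le
  refine h3.trans (hF.trans ?_)
  exact Vale.Agent.P151.Ex_mono_p (by linarith only [hr1, hpc0]) hrq (hq.le.trans hpc1.le) _
    (tail_mono n x)

end Vale.Agent.P165.H177
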